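import Vale.Agent.P199.K.Assembly.Infinite

/-!
P199 assembly: the pins give a counterexample to Kurosh's conjecture.
-/

namespace Vale.Agent.P199.K.Assembly

/-- A domain integral over a central field, generated by two elements over it and without finite
stable space, gives the goal. -/
theorem goal_of_data {K D : Type} [Field K] [Ring D] [IsDomain D] [Algebra K D]
    (hint : ∀ z : D, IsIntegral K z) (x : Bool → D)
    (hgen : Subring.closure (Set.range (algebraMap K D) ∪ Set.range x) = ⊤)
    (hno : ∀ (e : ℕ) (v : Fin e → D) (c₁ : Fin e → K) (c : Bool → Fin e → Fin e → K),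
      1 = ∑ i, c₁ i • v i → (∀ b j, x b * v j = ∑ i, c b j i • v i) → False) :
    Goal := by
  classical
  let inst : DivisionRing D := DivisionRing.ofIsUnitOrEqZero fun z =>
    or_iff_not_imp_right.2 fun hz => (hint z).isUnit hz
  let k : Subfield D :=
    { (algebraMap K D).range with
      inv_mem' := by
        rintro _ ⟨c, rfl⟩
        exact ⟨c⁻¹, map_inv₀ (algebraMap K D) c⟩ }
  have hk : ∀ c, algebraMap K D c ∈ k := fun c => ⟨c, rfl⟩
  have hS : ((Finset.univ.image x : Finset D) : Set D) = Set.range x := by
    rw [Finset.coe_image, Finset.coe_univ, Set.image_univ]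
  let φ : K →+* Subring.center D := (algebraMap K D).codRestrict _ fun c =>
    Subring.mem_center_iff.2 fun g => (Algebra.commutes c g).symm
  refine ⟨D, inst, k, Finset.univ.image x, ?_, ?_, fun a => ?_, ⟨fun a => ?_⟩, ?_, fun hfin => ?_⟩
  · rintro _ ⟨c, rfl⟩ y
    exact Algebra.commutes c y
  · rw [hS]
    exact hgen
  · obtain ⟨p, hp, hpa⟩ := hint a
    refine ⟨p.map (algebraMap K D), (hp.map _).ne_zero, fun j => ?_, ?_⟩
    · rw [Polynomial.coeff_map]
      exact hk _
    · have h : (p.map (algebraMap K D)).eval a = 0 := by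
        rw [Polynomial.eval_map]; exact hpa
      rw [Polynomial.eval_eq_sum, Polynomial.sum_def] at h
      exact h
  · obtain ⟨p, hp, hpa⟩ := hint a
    refine ⟨p.map φ, (hp.map _).ne_zero, ?_⟩
    rw [Polynomial.aeval_def, Polynomial.eval₂_map]
    exact hpa
  · rw [hS]
    refine eq_top_iff.2 fun z _ => ?_
    have hz : z ∈ Subring.closure (Set.range (algebraMap K D) ∪ Set.range x) := hgen ▸ trivial
    have hle : Subring.closure (Set.range (algebraMap K D) ∪ Set.range x) ≤
        (Algebra.adjoin (Subring.center D) (Set.range x)).toSubring :=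
      Subring.closure_le.2 (Set.union_subset
        (by rintro _ ⟨c, rfl⟩; exact Subalgebra.algebraMap_mem _ (φ c))
        fun y hy => Algebra.subset_adjoin hy)
    exact hle hz
  · obtain ⟨e, v, c₁, c, h1, h2⟩ := exists_stable hint hfin x
    exact hno e v c₁ c h1 h2

/-- The pins give a division ring which disproves Kurosh's conjecture. -/
theorem goal_of_pins (hM : ModelPin) (hT : TriPin) (hR : RootPin) : Goal := by
  let P : ∀ t, Pt t := fun t => (exists_pt hM t).some
  exact goal_of_data (isIntegral P hR) (gen P) (closure_eq_top P)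
    fun e v c₁ c h1 h2 => not_stable P hT v c₁ c h1 h2

end Vale.Agent.P199.K.Assembly
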