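import Vale.Agent.P199.K.Defs

/-!
P199: the independent blocks of the disproof of Kurosh's conjecture, as propositions.
-/

namespace Vale.Agent.P199.K

open MvPolynomial

/-! ## HS: Hilbert series (`HS/Core.lean`, `corePin`) -/

/-- Existence of numerators, prime filtrations, lower bound and positivity. -/
def CorePin : Prop :=
  ∀ (σ ι : Type) [Fintype σ] [Fintype ι] (w : σ → ι →₀ ℕ), (∀ v, w v ≠ 0) →
    (∀ I : Ideal (MvPolynomial σ ℂ), IsHom w I → IsK w I (kpoly w I)) ∧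
    (∀ I : Ideal (MvPolynomial σ ℂ), IsHom w I →
      ∃ l : List ((ι →₀ ℕ) × Ideal (MvPolynomial σ ℂ)),
        (∀ x ∈ l, x.2.IsPrime ∧ IsHom w x.2 ∧ I ≤ x.2) ∧
        kpoly w I = (l.map fun x => monomial x.1 (1 : ℤ) * kpoly w x.2).sum) ∧
    (∀ P : Ideal (MvPolynomial σ ℂ), P.IsPrime → IsHom w P →
      (∀ j < codim P, homogeneousComponent j (kshift w P) = 0) ∧
      ∀ u : ι → ℤ, (∀ i, 0 < u i) → 0 < eval u (lowZ w P))

/-! ## CUT: the calculus of multidegrees (`HS/Cut.lean`, `cutPin : CorePin → CutPin`) -/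

/-- One hypersurface: the multidegree times the degree of the equation is a sum of multidegrees of
primes one codimension higher. -/
def CutExpandPin : Prop :=
  ∀ (σ ι : Type) [Fintype σ] [Fintype ι] (w : σ → ι →₀ ℕ), (∀ v, w v ≠ 0) →
    ∀ p : ℕ, p.Prime → ∀ (P : Ideal (MvPolynomial σ ℂ)) (g : MvPolynomial σ ℂ) (d : ι →₀ ℕ),
      P.IsPrime → IsHom w P → IsWeightedHomogeneous w g d → g ∉ P →
      ∃ l : List (Ideal (MvPolynomial σ ℂ)),
        (∀ Q ∈ l, Q.IsPrime ∧ IsHom w Q ∧ P ≤ Q ∧ g ∈ Q ∧ codim Q = codim P + 1) ∧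
        lin p d * cls w p P = (l.map fun Q => cls w p Q).sum

/-- Consequently one equation keeps a good prime. -/
def CutPin : Prop :=
  CutExpandPin ∧
  ∀ (σ ι : Type) [Fintype σ] [Fintype ι] (w : σ → ι →₀ ℕ), (∀ v, w v ≠ 0) →
    ∀ p : ℕ, p.Prime → ∀ (P : Ideal (MvPolynomial σ ℂ)) (g : MvPolynomial σ ℂ) (d : ι →₀ ℕ),
      Good w p P → IsWeightedHomogeneous w g d → lin p d ≠ 0 →
      ∃ Q, Good w p Q ∧ P ≤ Q ∧ g ∈ Q ∧ codim Q ≤ codim P + 1

/-- Variables in a prime split off their degrees; a good prime misses variables of degree zero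
modulo `p`; such a variable can be eliminated without changing the codimension. -/
def VarPin : Prop :=
  (∀ (σ ι : Type) [Fintype σ] [Fintype ι] (w : σ → ι →₀ ℕ), (∀ v, w v ≠ 0) →
    ∀ p : ℕ, p.Prime → ∀ (P : Ideal (MvPolynomial σ ℂ)) (s : Finset σ),
      P.IsPrime → IsHom w P → (∀ v ∈ s, (X v : MvPolynomial σ ℂ) ∈ P) →
      (∏ v ∈ s, lin p (w v)) ∣ cls w p P) ∧
  ∀ (σ ι : Type) [Fintype σ] [Fintype ι] (w : Option σ → ι →₀ ℕ), (∀ v, w v ≠ 0) →
    ∀ p : ℕ, p.Prime → ∀ (P : Ideal (MvPolynomial (Option σ) ℂ)) (q : MvPolynomial σ ℂ),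
      Good w p P → IsWeightedHomogeneous (fun v => w (some v)) q (w none) → lin p (w none) = 0 →
      ∃ Q : Ideal (MvPolynomial σ ℂ), Good (fun v => w (some v)) p Q ∧
        P.map (aeval (fun v : Option σ => v.elim q X) :
          MvPolynomial (Option σ) ℂ →ₐ[ℂ] MvPolynomial σ ℂ) ≤ Q ∧
        codim Q ≤ codim P

/-- Renaming the variables changes nothing. -/
def RenamePin : Prop :=
  ∀ (σ τ ι : Type) [Fintype σ] [Fintype τ] [Fintype ι] (e : σ ≃ τ) (w : τ → ι →₀ ℕ) (p : ℕ)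
    (P : Ideal (MvPolynomial σ ℂ)), Good (fun v => w (e v)) p P →
      Good w p (P.map (rename e : MvPolynomial σ ℂ →ₐ[ℂ] MvPolynomial τ ℂ)) ∧
      codim (P.map (rename e : MvPolynomial σ ℂ →ₐ[ℂ] MvPolynomial τ ℂ)) = codim P

/-- The product of two good primes. -/
def ProdPin : Prop :=
  ∀ (σ τ ι : Type) [Fintype σ] [Fintype τ] [Fintype ι] (w : σ → ι →₀ ℕ) (w' : τ → ι →₀ ℕ),
    (∀ v, w v ≠ 0) → (∀ v, w' v ≠ 0) → ∀ p : ℕ, p.Prime →
    ∀ (P : Ideal (MvPolynomial σ ℂ)) (Q : Ideal (MvPolynomial τ ℂ)),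
      Good w p P → Good w' p Q →
      ∃ R : Ideal (MvPolynomial (σ ⊕ τ) ℂ), Good (Sum.elim w w') p R ∧
        P.map (rename Sum.inl : MvPolynomial σ ℂ →ₐ[ℂ] MvPolynomial (σ ⊕ τ) ℂ) ≤ R ∧
        Q.map (rename Sum.inr : MvPolynomial τ ℂ →ₐ[ℂ] MvPolynomial (σ ⊕ τ) ℂ) ≤ R ∧
        codim R ≤ codim P + codim Q

/-- The bound on the degree in an extra grading coordinate. -/
def HBoundPin : Prop :=
  ∀ (σ τ ι : Type) [Fintype σ] [Fintype τ] [Fintype ι] (w : σ ⊕ τ → Option ι →₀ ℕ),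
    (∀ v, w v ≠ 0) → (∀ v, w (Sum.inl v) none = 0) → (∀ v, w (Sum.inr v) none = 1) →
    ∀ p : ℕ, p.Prime → ∀ T : Ideal (MvPolynomial (σ ⊕ τ) ℂ), T.IsPrime → IsHom w T →
      (cls w p T).degreeOf none + codim (T.comap
        (rename Sum.inl : MvPolynomial σ ℂ →ₐ[ℂ] MvPolynomial (σ ⊕ τ) ℂ)) ≤ codim T

/-! ## DIV (`Div.lean`, `divPin : CutExpandPin → VarPin → HBoundPin → DivPin`) -/

/-- On a good prime missing the `t`, the twisted determinant has no nontrivial zero. -/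
def DivPin : Prop :=
  ∀ (σ : Type) [Fintype σ] (p r : ℕ) [Fact p.Prime] [NeZero r]
    (w : σ → Co r →₀ ℕ) (tv : Co r → σ), (∀ v, w v ≠ 0) →
    (∀ i, w (tv i) = Finsupp.single i p) →
    ∀ P : Ideal (MvPolynomial σ ℂ), Good w p P →
    ∀ (F : Type) [Field F] [Algebra ℂ F] (ψ : MvPolynomial σ ℂ →ₐ[ℂ] F),
      RingHom.ker ψ = P → ∀ u : Co r → F, (∀ i, ψ (X (tv i)) = u i ^ p) → (∀ i, u i ≠ 0) →
      ∀ (φ : Gp p r → MvPolynomial σ ℂ) (D : Gp p r → Co r →₀ ℕ),
        (∀ a, IsWeightedHomogeneous w (φ a) (D a)) → (∀ a i, ((D a i : ℕ) : ZMod p) = a i) →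
        (∑ a, ((D a).prod fun i n => ((u i) ^ n)⁻¹) • ψ (φ a) • WA p r F a).det = 0 →
        ∀ a, φ a ∈ P

/-! ## START (`Start.lean`, `startPin : CorePin → StartPin`) -/

/-- The traceless coordinates and the `t`. -/
abbrev ZT (p r : ℕ) : Type := {b : Gp p r // b ≠ 0} ⊕ Co r

/-- The degrees of these coordinates. -/
noncomputable def ztWt (p r : ℕ) [NeZero r] : ZT p r → Co r →₀ ℕ :=
  Sum.elim (fun b => tdeg p r b.1) (fun i => Finsupp.single i p)

/-- A good prime of small codimension whose points have degree at most `p ^ n`. -/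
def StartPin : Prop :=
  ∀ (p r n : ℕ) [Fact p.Prime] [NeZero r], n < r →
    ∃ P : Ideal (MvPolynomial (ZT p r) ℂ), Good (ztWt p r) p P ∧ codim P ≤ cN p r n ∧
      ∀ (F : Type) [Field F] [Algebra ℂ F] (ψ : MvPolynomial (ZT p r) ℂ →ₐ[ℂ] F),
        (∀ g ∈ P, ψ g = 0) → ∀ u : Co r → F,
        (∀ i, ψ (X (Sum.inr i)) = u i ^ p) → (∀ i, u i ≠ 0) → ∀ c : F,
          HasRoot (p ^ n) (p ^ (r - n))
            (c • (1 : Matrix (Ix p r) (Ix p r) F) + ∑ b : {b : Gp p r // b ≠ 0},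
              ((tdeg p r b.1).prod fun i k => ((u i) ^ k)⁻¹) • ψ (X (Sum.inl b)) • WA p r F b.1)

/-! ## MODEL (`Model.lean`, `modelPin`) -/

/-- One matrix size: a point at which the twisted algebra is a domain, the given elements have
small degree, and the two generic matrices span a large transcendence degree. -/
def ModelPin : Prop :=
  ∀ (p r k : ℕ) [Fact p.Prime] [NeZero r]
    (f : Fin k → Matrix (Ix p r) (Ix p r) (MvPolynomial (XY p r) ℂ)) (n : Fin k → ℕ),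
    (∀ i, IsEquiv p r (f i)) → (∀ i, n i < r) →
    ∃ (F : Type) (_ : Field F) (_ : Algebra ℂ F) (_ : IsAlgClosed F)
      (e : MvPolynomial (XY p r) ℂ →ₐ[ℂ] F),
      (∀ c : Gp p r → MvPolynomial (XY p r) ℂ,
        (∀ a, IsWeightedHomogeneous (xyWt p r) (c a) a) →
        (∑ a, e (c a) • WA p r F a).det = 0 → ∀ a, e (c a) = 0) ∧
      (∀ i, HasRoot (p ^ n i) (p ^ (r - n i)) ((f i).map e)) ∧
      ∀ (s : ℕ) (z : Fin s → F),
        (∀ v, IsAlgebraic (Algebra.adjoin ℂ (Set.range z)) (e (X v))) →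
        2 * (p ^ r) ^ 2 ≤ s + ∑ i, cN p r (n i)

/-! ## TRI (`Tri.lean`, `triPin`) -/

/-- Two matrices whose words satisfy a standard identity depend on few parameters. -/
def TriPin : Prop :=
  ∀ (F : Type) [Field F] [Algebra ℂ F] [IsAlgClosed F] (ι : Type) [Fintype ι] [DecidableEq ι]
    (A B : Matrix ι ι F) (d : ℕ),
    SatisfiesStd (2 * d) ((Subring.closure {A, B} : Subring (Matrix ι ι F)) :
      Set (Matrix ι ι F)) →
    ∃ (s : ℕ) (z : Fin s → F),
      2 * s ≤ 3 * Fintype.card ι ^ 2 + 4 * d * Fintype.card ι ∧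
      ∀ i j, IsAlgebraic (Algebra.adjoin ℂ (Set.range z)) (A i j) ∧
        IsAlgebraic (Algebra.adjoin ℂ (Set.range z)) (B i j)

/-! ## ROOT (`Root.lean`, `rootPin`) -/

/-- The formal root formula recovers the coefficients of the root. -/
def RootPin : Prop :=
  ∀ (R : Type) [CommRing R] [Algebra ℚ R] (q : Polynomial R) (N m : ℕ),
    q.Monic → q.natDegree = N → 0 < m →
    ∀ l ≤ N, rootCoeff m (N * m) l (q ^ m) = q.coeff (N - l)

/-! ## GOAL -/

/-- There is a division ring, algebraic over a central subfield generating it with finitely many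
elements and over its centre, that is infinite dimensional over its centre. -/
def Goal : Prop :=
  ∃ (D : Type) (_ : DivisionRing D) (k : Subfield D) (S : Finset D),
    (∀ x ∈ k, ∀ y : D, x * y = y * x) ∧
    Subring.closure ((k : Set D) ∪ (S : Set D)) = ⊤ ∧
    (∀ a : D, ∃ q : Polynomial D, q ≠ 0 ∧ (∀ j, q.coeff j ∈ k) ∧
      ∑ j ∈ q.support, q.coeff j * a ^ j = 0) ∧
    Algebra.IsAlgebraic (Subring.center D) D ∧
    Algebra.adjoin (Subring.center D) (S : Set D) = ⊤ ∧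
    ¬ Module.Finite (Subring.center D) D

end Vale.Agent.P199.K
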