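import Mathlib

/-!
P199 (Kurosh's problem for division rings): definitions for the disproof (notes/P199/lead.md).
-/

namespace Vale.Agent.P199.K

open MvPolynomial
open scoped BigOperators

/-! ## Multigraded polynomial rings and the class of a prime -/

section Graded

variable {σ ι : Type} [Fintype σ] (w : σ → ι →₀ ℕ)

/-- An ideal containing the homogeneous components of its elements. -/
def IsHom (I : Ideal (MvPolynomial σ ℂ)) : Prop :=
  ∀ f ∈ I, ∀ d, weightedHomogeneousComponent w d f ∈ I

/-- The dimension of one graded piece of the quotient. -/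
noncomputable def hilb (I : Ideal (MvPolynomial σ ℂ)) (d : ι →₀ ℕ) : ℕ :=
  Module.finrank ℂ ((weightedHomogeneousSubmodule ℂ w d) ⧸
    (I.restrictScalars ℂ).comap (weightedHomogeneousSubmodule ℂ w d).subtype)

/-- The Hilbert series. -/
noncomputable def ser (I : Ideal (MvPolynomial σ ℂ)) : MvPowerSeries ι ℤ :=
  fun d => (hilb w I d : ℤ)

/-- The product of the factors `1 - T ^ deg v`. -/
noncomputable def den : MvPolynomial ι ℤ := ∏ v, (1 - monomial (w v) 1)

/-- `K` is the numerator of the Hilbert series. -/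
def IsK (I : Ideal (MvPolynomial σ ℂ)) (K : MvPolynomial ι ℤ) : Prop :=
  (K : MvPowerSeries ι ℤ) = ser w I * (den w : MvPowerSeries ι ℤ)

open Classical in
/-- The numerator of the Hilbert series. -/
noncomputable def kpoly (I : Ideal (MvPolynomial σ ℂ)) : MvPolynomial ι ℤ :=
  if h : ∃ K, IsK w I K then h.choose else 0

/-- The numerator after the substitution `T = 1 - s`. -/
noncomputable def kshift (I : Ideal (MvPolynomial σ ℂ)) : MvPolynomial ι ℤ :=
  aeval (fun i => 1 - (X i : MvPolynomial ι ℤ)) (kpoly w I)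

/-- The codimension of a prime: variables minus transcendence degree. -/
noncomputable def codim (P : Ideal (MvPolynomial σ ℂ)) : ℕ :=
  Fintype.card σ - (Algebra.trdeg ℂ (MvPolynomial σ ℂ ⧸ P)).toNat

/-- The multidegree over the integers. -/
noncomputable def lowZ (P : Ideal (MvPolynomial σ ℂ)) : MvPolynomial ι ℤ :=
  homogeneousComponent (codim P) (kshift w P)

/-- The multidegree modulo `p`. -/
noncomputable def cls (p : ℕ) (P : Ideal (MvPolynomial σ ℂ)) : MvPolynomial ι (ZMod p) :=
  map (Int.castRingHom (ZMod p)) (lowZ w P)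

end Graded

/-- The linear form of a degree modulo `p`. -/
noncomputable def lin {ι : Type} (p : ℕ) (d : ι →₀ ℕ) : MvPolynomial ι (ZMod p) :=
  d.sum fun i n => C (n : ZMod p) * X i

/-- A prime homogeneous ideal whose multidegree is nonzero modulo `p`. -/
def Good {σ ι : Type} [Fintype σ] (w : σ → ι →₀ ℕ) (p : ℕ) (P : Ideal (MvPolynomial σ ℂ)) : Prop :=
  P.IsPrime ∧ IsHom w P ∧ cls w p P ≠ 0

/-! ## The group `(ℤ/p)^{2r}` and the Weyl basis -/

/-- The coordinates of the group. -/
abbrev Co (r : ℕ) : Type := Fin r ⊕ Fin r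

/-- The group. -/
abbrev Gp (p r : ℕ) : Type := Co r → ZMod p

/-- The index type of the matrices of size `p ^ r`. -/
abbrev Ix (p r : ℕ) : Type := Fin r → ZMod p

/-- A primitive `p`-th root of unity. -/
noncomputable def zeta (p : ℕ) : ℂ := Complex.exp (2 * Real.pi * Complex.I / p)

/-- The Weyl matrices: a shift times a phase. -/
noncomputable def W (p r : ℕ) (a : Gp p r) : Matrix (Ix p r) (Ix p r) ℂ :=
  fun i j => if i = j + (fun k => a (Sum.inl k)) then
    zeta p ^ (∑ k, a (Sum.inr k) * j k).val else 0

/-- The Weyl matrices over a complex algebra. -/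
noncomputable def WA (p r : ℕ) (R : Type) [CommRing R] [Algebra ℂ R] (a : Gp p r) :
    Matrix (Ix p r) (Ix p r) R :=
  (W p r a).map (algebraMap ℂ R)

/-- The lift of a group element to a degree; the zero element goes to `p` times a unit vector. -/
noncomputable def tdeg (p r : ℕ) [NeZero r] (a : Gp p r) : Co r →₀ ℕ :=
  if a = 0 then Finsupp.single (Sum.inl 0) p else Finsupp.equivFunOnFinite.symm fun i => (a i).val

/-! ## The generic point -/

/-- The coordinates of a pair of matrices. -/
abbrev XY (p r : ℕ) : Type := Gp p r ⊕ Gp p r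

/-- The weight of a coordinate. -/
def xyWt (p r : ℕ) : XY p r → Gp p r := Sum.elim id id

/-- A polynomial matrix function of weight zero: its coordinates have the weights of their index. -/
def IsEquiv (p r : ℕ) [NeZero p]
    (f : Matrix (Ix p r) (Ix p r) (MvPolynomial (XY p r) ℂ)) : Prop :=
  ∃ c : Gp p r → MvPolynomial (XY p r) ℂ,
    (∀ a, IsWeightedHomogeneous (xyWt p r) (c a) a) ∧
    f = ∑ a, c a • WA p r (MvPolynomial (XY p r) ℂ) a

/-- The first generic matrix. -/
noncomputable def genX (p r : ℕ) [NeZero p] :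
    Matrix (Ix p r) (Ix p r) (MvPolynomial (XY p r) ℂ) :=
  ∑ a, (X (Sum.inl a) : MvPolynomial (XY p r) ℂ) • WA p r (MvPolynomial (XY p r) ℂ) a

/-- The second generic matrix. -/
noncomputable def genY (p r : ℕ) [NeZero p] :
    Matrix (Ix p r) (Ix p r) (MvPolynomial (XY p r) ℂ) :=
  ∑ a, (X (Sum.inr a) : MvPolynomial (XY p r) ℂ) • WA p r (MvPolynomial (XY p r) ℂ) a

/-- The codimension of the conjugates of `diag (l_1, …, l_N) ⊗ 1` with `N = p ^ n`. -/
def cN (p r n : ℕ) : ℕ := p ^ n * ((p ^ (r - n)) ^ 2 - 1)

/-- `A` is annihilated by a monic polynomial of degree `N` whose `m`-th power is its characteristic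
polynomial. -/
def HasRoot {n R : Type} [Fintype n] [DecidableEq n] [CommRing R] (N m : ℕ) (A : Matrix n n R) :
    Prop :=
  ∃ q : Polynomial R, q.Monic ∧ q.natDegree = N ∧ A.charpoly = q ^ m ∧ Polynomial.aeval A q = 0

/-! ## The root of a characteristic polynomial -/

/-- Top-down coefficients of the formal `m`-th root of a monic polynomial of degree `M`. -/
noncomputable def rootCoeff {R : Type} [CommRing R] [Algebra ℚ R] (m M l : ℕ) (χ : Polynomial R) :
    R :=
  (∑ k ∈ Finset.range (l + 1),
    algebraMap ℚ R ((∏ j ∈ Finset.range k, ((1 : ℚ) / m - j)) / k.factorial) •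
      ((χ.reflect M - 1) ^ k)).coeff l

/-! ## Standard identities -/

/-- The values of the standard polynomial in `k` elements vanish on a subalgebra. -/
def SatisfiesStd {A : Type} [Ring A] (k : ℕ) (S : Set A) : Prop :=
  ∀ v : Fin k → A, (∀ i, v i ∈ S) →
    ∑ e : Equiv.Perm (Fin k), ((Equiv.Perm.sign e : ℤˣ) : ℤ) • (List.ofFn fun i => v (e i)).prod = 0

end Vale.Agent.P199.K
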