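import Vale.Agent.P199.K.DivAux.Codim
import Vale.Agent.P199.K.DivAux.Cuts
import Vale.Agent.P199.K.DivAux.Det
import Vale.Agent.P199.K.DivAux.Ext

/-! P199, DIV: on a good prime missing the `t`, the twisted determinant has only the trivial
zero.  Every prime left after cutting the ambient prime by the equations `Φ_b φ_{a₀} = Φ_{a₀} φ_b`
and missing `φ_{a₀}` has class zero (too many roots in the extra coordinate), and those containing
`φ_{a₀}` have too small a degree in it. -/

namespace Vale.Agent.P199.K

open MvPolynomial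

set_option maxHeartbeats 1000000 in
theorem divPin (hC : CutExpandPin) (hV : VarPin) (hB : HBoundPin) : DivPin := by
  have hE : ExtPin := extPin
  classical
  intro σ _ p r _ _ w tv hw htv P hP F _ _ ψ hψ u hu hu0 φ D hφ hD hdet
  have hp : p.Prime := Fact.out
  by_contra hcon
  push Not at hcon
  obtain ⟨a0, ha0⟩ := hcon
  obtain ⟨R, ⟨hRp, hRh, hRc⟩, hPR, hRle⟩ := hE σ (Gp p r) (Co r) w D hw p hp P hP
  set w' := extWt w D with hw'
  have hw'0 : ∀ v, w' v ≠ 0 := by
    rintro (v | a)
    · exact emb_ne_zero (hw v)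
    · exact emb1_ne_zero _
  let inl : MvPolynomial σ ℂ →ₐ[ℂ] MvPolynomial (σ ⊕ Gp p r) ℂ := rename Sum.inl
  let Φ : Gp p r → MvPolynomial (σ ⊕ Gp p r) ℂ := fun a => X (Sum.inr a)
  have hΦ : ∀ a, IsWeightedHomogeneous w' (Φ a) (emb1 (D a)) := fun a =>
    isWeightedHomogeneous_X ℂ w' (Sum.inr a)
  have hinl : ∀ g d, IsWeightedHomogeneous w g d → IsWeightedHomogeneous w' (inl g) (emb d) := by
    intro g d hg m hm
    obtain ⟨m', rfl, hm'⟩ := coeff_rename_ne_zero _ _ _ hm
    have := hg hm'
    rw [Finsupp.weight_apply] at this ⊢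
    rw [Finsupp.sum_mapDomain_index_inj Sum.inl_injective, ← this, emb,
      ← Finsupp.mapDomain.addMonoidHom_apply, map_finsuppSum]
    refine Finsupp.sum_congr fun v _ => ?_
    simp [hw', extWt, emb, Finsupp.mapDomain_smul]
  have hbound : ∀ Q, Q.IsPrime → IsHom w' Q →
      (cls w' p Q).degreeOf none + codim (Q.comap inl) ≤ codim Q := fun Q hQ hQh =>
    hB σ (Gp p r) (Co r) w' hw'0 (fun v => emb_none _) (fun v => emb1_none _) p hp Q hQ hQh
  have hPle : ∀ {Q : Ideal (MvPolynomial (σ ⊕ Gp p r) ℂ)}, R ≤ Q → P ≤ Q.comap inl :=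
    fun hRQ => Ideal.le_comap_of_map_le (hPR.trans hRQ)
  have hR0 : (cls w' p R).degreeOf none = 0 := by
    have := hbound R hRp hRh
    have := codim_mono (hPle (le_refl R))
    omega
  -- the twisted determinant
  have hdvd : ∀ m ∈ (det0 p r).support, ∀ i, p ∣ ∑ a, m a * D a i := by
    intro m hm i
    rw [← ZMod.natCast_eq_zero_iff, Nat.cast_sum]
    simp only [Nat.cast_mul, hD]
    exact det0_weight (mem_support_iff.1 hm) i
  let e : (Gp p r →₀ ℕ) → Co r → ℕ := fun m i => (∑ a, m a * D a i) / p
  let T0 : Co r → ℕ := fun i => (det0 p r).support.sup fun m => e m i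
  let tt : (Gp p r →₀ ℕ) → MvPolynomial σ ℂ := fun m => ∏ i, X (tv i) ^ (T0 i - e m i)
  let Δ : MvPolynomial (σ ⊕ Gp p r) ℂ :=
    ∑ m ∈ (det0 p r).support, C (coeff m (det0 p r)) * (∏ a, Φ a ^ m a) * inl (tt m)
  let Δφ : MvPolynomial σ ℂ :=
    ∑ m ∈ (det0 p r).support, C (coeff m (det0 p r)) * (∏ a, φ a ^ m a) * tt m
  have hΔφ : Δφ ∈ P := by
    rw [← hψ, RingHom.mem_ker, map_sum]
    have h0 := aeval_det0 F (fun a => ((D a).prod fun i n => ((u i) ^ n)⁻¹) • ψ (φ a))
    simp only [smul_assoc] at h0
    rw [hdet, aeval_def, eval₂_eq'] at h0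
    have h1 : ∀ m ∈ (det0 p r).support, ψ (C (coeff m (det0 p r)) * (∏ a, φ a ^ m a) * tt m) =
        (∏ i, u i ^ (p * T0 i)) * (algebraMap ℂ F (coeff m (det0 p r)) *
          ∏ a, (((D a).prod fun i n => ((u i) ^ n)⁻¹) • ψ (φ a)) ^ m a) := by
      intro m hm
      have hu' : ∀ i, u i ^ (p * T0 i) * ∏ a, ((u i ^ D a i)⁻¹) ^ m a =
          (u i ^ p) ^ (T0 i - e m i) := by
        intro i
        have hle : e m i ≤ T0 i := Finset.le_sup (f := fun m => e m i) hm
        simp only [inv_pow, ← pow_mul, Finset.prod_inv_distrib, Finset.prod_pow_eq_pow_sum]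
        have hsum : ∑ a, D a i * m a = p * e m i := by
          rw [Nat.mul_div_cancel' (hdvd m hm i)]
          exact Finset.sum_congr rfl fun a _ => Nat.mul_comm _ _
        rw [hsum, ← pow_sub₀ _ (hu0 i) (Nat.mul_le_mul_left p hle), Nat.mul_sub]
      rw [map_mul, map_mul, map_prod, ← algebraMap_eq, AlgHom.commutes]
      simp only [tt, map_prod, map_pow, hu, ← hu', smul_eq_mul, mul_pow, Finset.prod_mul_distrib]
      have hswap : (∏ a, ((D a).prod fun i n => ((u i) ^ n)⁻¹) ^ m a) =
          ∏ i, ∏ a, ((u i ^ D a i)⁻¹) ^ m a := by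
        rw [Finset.prod_comm]
        refine Finset.prod_congr rfl fun a _ => ?_
        rw [Finsupp.prod_fintype _ _ (fun i => by simp), ← Finset.prod_pow]
      rw [hswap]
      ring
    rw [Finset.sum_congr rfl h1, ← Finset.mul_sum, h0, mul_zero]
  -- `Δ` lies in the primes containing all equations and missing `φ a0`
  let g : Gp p r → MvPolynomial (σ ⊕ Gp p r) ℂ := fun b => Φ b * inl (φ a0) - Φ a0 * inl (φ b)
  have hΔ : ∀ Q : Ideal (MvPolynomial (σ ⊕ Gp p r) ℂ), Q.IsPrime → R ≤ Q → inl (φ a0) ∉ Q →
      (∀ b, b ≠ a0 → g b ∈ Q) → Δ ∈ Q := by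
    intro Q hQ hRQ hn hg
    let π := Ideal.Quotient.mk Q
    have : IsDomain (MvPolynomial (σ ⊕ Gp p r) ℂ ⧸ Q) := Ideal.Quotient.isDomain Q
    have hb : ∀ b, π (Φ b) * π (inl (φ a0)) = π (Φ a0) * π (inl (φ b)) := by
      intro b
      by_cases h : b = a0
      · rw [h]
      · rw [← map_mul, ← map_mul]; exact Ideal.Quotient.eq.2 (hg b h)
    have h1 : π (inl (φ a0)) ^ Fintype.card (Ix p r) * π Δ =
        π (Φ a0) ^ Fintype.card (Ix p r) * π (inl Δφ) := by
      simp only [Δ, Δφ, map_sum, Finset.mul_sum]
      refine Finset.sum_congr rfl fun m hm => ?_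
      have hdeg : ∑ a, m a = Fintype.card (Ix p r) := by
        have := det0_homogeneous (mem_support_iff.1 hm)
        rw [Finsupp.weight_apply, Finsupp.sum_fintype _ _ (fun _ => by simp)] at this
        simpa using this
      have h2 : π (inl (φ a0)) ^ Fintype.card (Ix p r) * ∏ a, π (Φ a) ^ m a =
          π (Φ a0) ^ Fintype.card (Ix p r) * ∏ a, π (inl (φ a)) ^ m a := by
        rw [← hdeg, ← Finset.prod_pow_eq_pow_sum, ← Finset.prod_pow_eq_pow_sum,
          ← Finset.prod_mul_distrib, ← Finset.prod_mul_distrib]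
        exact Finset.prod_congr rfl fun a _ => by
          rw [← mul_pow, ← mul_pow, mul_comm (π (inl (φ a0))), hb]
      simp only [map_mul, map_prod, map_pow, inl, rename_C]
      linear_combination π (C (coeff m (det0 p r))) * π (rename Sum.inl (tt m)) * h2
    have h3 : π (inl Δφ) = 0 := Ideal.Quotient.eq_zero_iff_mem.2 (hPle hRQ hΔφ)
    rw [h3, mul_zero] at h1
    rcases mul_eq_zero.1 h1 with h | h
    · exact absurd (Ideal.Quotient.eq_zero_iff_mem.1 (pow_eq_zero_iff (Fintype.card_ne_zero) |>.1 h)) hn
    · exact Ideal.Quotient.eq_zero_iff_mem.1 h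
  -- classes as polynomials in the extra coordinate
  let pc := optionEquivLeft (ZMod p) (Co r)
  let L : Gp p r → MvPolynomial (Co r) (ZMod p) := fun a => lin p (D a)
  have hLinj : Function.Injective L := by
    intro a b h
    funext i
    have key : ∀ c : Gp p r, coeff (Finsupp.single i 1) (L c) = c i := by
      intro c
      simp only [L, lin]
      rw [Finsupp.sum_fintype _ _ (fun _ => by simp)]
      simp only [coeff_sum, coeff_C_mul, coeff_X, hD]
      rw [Finset.sum_eq_single i (fun j _ hj => by
        simp [Finsupp.single_eq_single_iff, hj]) (by simp)]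
      simp
    rw [← key a, h, key]
  have hvars : ∀ Q : Ideal (MvPolynomial (σ ⊕ Gp p r) ℂ), Q.IsPrime → IsHom w' Q →
      ∀ v, (X v : MvPolynomial (σ ⊕ Gp p r) ℂ) ∈ Q → lin p (w' v) ∣ cls w' p Q := by
    intro Q hQ hQh v hv
    simpa using hV.1 (σ ⊕ Gp p r) (Option (Co r)) w' hw'0 p hp Q {v} hQ hQh (by simpa using hv)
  -- the primes missing `φ a0` have class zero
  have hzero : ∀ Q : Ideal (MvPolynomial (σ ⊕ Gp p r) ℂ), Q.IsPrime → IsHom w' Q → R ≤ Q →
      inl (φ a0) ∉ Q → (∀ b, b ≠ a0 → g b ∈ Q) →
      (cls w' p Q).degreeOf none < Fintype.card (Gp p r) → cls w' p Q = 0 := by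
    intro Q hQ hQh hRQ hn hg hdeg
    have hroot : ∀ a, (pc (cls w' p Q)).eval (-L a) = 0 := by
      intro a
      let gs := (Finset.univ.erase a).toList.map fun b => (Φ b, emb1 (D b))
      let Z : MvPolynomial (Option (Co r)) (ZMod p) → Prop := fun x => (pc x).eval (-L a) = 0
      have h := cut_induct hC w' hw'0 hp 1 gs (by simp [gs, hΦ]) Z (by simp [Z])
        (fun x y hx hy => by simp only [Z] at *; simp [hx, hy]) Q hQ hQh ?_
      · simp only [Z, map_mul, Polynomial.eval_mul] at h
        rcases mul_eq_zero.1 h with h | h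
        · exfalso
          simp only [gs, List.map_map, map_list_prod, Polynomial.eval_list_prod] at h
          rw [List.prod_eq_zero_iff] at h
          simp only [List.mem_map, Function.comp_apply, Finset.mem_toList, Finset.mem_erase] at h
          obtain ⟨b, hb, hb0⟩ := h
          rw [pc_lin_emb1] at hb0
          simp only [Polynomial.eval_add, Polynomial.eval_X, Polynomial.eval_C] at hb0
          exact hb.1 (hLinj (neg_add_eq_zero.1 hb0).symm)
        · exact h
      · intro Q' G k hQ' hQ'h hQQ' _ _ hor
        have hall := hor.resolve_left (fun h1 => hQ'.ne_top ((Ideal.eq_top_iff_one _).2 h1))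
        have hb : ∀ b, b ≠ a → Φ b ∈ Q' := fun b hb =>
          hall (Φ b, emb1 (D b)) (List.mem_map.2 ⟨b, by simp [hb], rfl⟩)
        simp only [Z, map_mul, Polynomial.eval_mul]
        refine mul_eq_zero.2 (Or.inr ?_)
        by_cases ha : Φ a ∈ Q'
        · obtain ⟨c, hc⟩ := hvars Q' hQ' hQ'h (Sum.inr a) ha
          rw [hc, map_mul, Polynomial.eval_mul, show w' (Sum.inr a) = emb1 (D a) from rfl]
          simp only [pc, pc_lin_emb1]
          simp [L]
        · obtain ⟨i, hi⟩ : ∃ i, inl (X (tv i)) ∈ Q' := by
            have hΔQ : Δ ∈ Q' := hQQ' (hΔ Q hQ hRQ hn hg)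
            let m0 := Finsupp.single a (Fintype.card (Ix p r))
            have hm0 : coeff m0 (det0 p r) ≠ 0 := by
              rw [coeff_det0_single]; exact det_W_ne_zero a
            have hrest : ∀ m ∈ (det0 p r).support, m ≠ m0 →
                C (coeff m (det0 p r)) * (∏ b, Φ b ^ m b) * inl (tt m) ∈ Q' := by
              intro m hm hne
              obtain ⟨b, hba, hmb⟩ : ∃ b, b ≠ a ∧ m b ≠ 0 := by
                by_contra hcon
                push Not at hcon
                apply hne
                have hd := det0_homogeneous (mem_support_iff.1 hm)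
                rw [Finsupp.weight_apply, Finsupp.sum_fintype _ _ (fun _ => by simp)] at hd
                simp only [Pi.one_apply, smul_eq_mul, mul_one] at hd
                rw [Finset.sum_eq_single a (fun b _ hb => hcon b hb) (by simp)] at hd
                ext b
                by_cases h : b = a
                · subst h; simp [m0, hd]
                · simp [m0, Finsupp.single_eq_of_ne h, hcon b h]
              refine Ideal.mul_mem_right _ _ (Ideal.mul_mem_left _ _ ?_)
              exact Ideal.mem_of_dvd _ (Finset.dvd_prod_of_mem _ (Finset.mem_univ b))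
                (Ideal.pow_mem_of_mem _ (hb b hba) _ (Nat.pos_of_ne_zero hmb))
            have hsum : C (coeff m0 (det0 p r)) * (∏ b, Φ b ^ m0 b) * inl (tt m0) ∈ Q' := by
              have hs : m0 ∈ (det0 p r).support := mem_support_iff.2 hm0
              simp only [Δ] at hΔQ
              rw [← Finset.add_sum_erase _ _ hs] at hΔQ
              exact (Ideal.add_mem_iff_left _ (Ideal.sum_mem _ fun m hm =>
                hrest m (Finset.mem_of_mem_erase hm) (Finset.ne_of_mem_erase hm))).1 hΔQ
            rcases hQ'.mem_or_mem hsum with h | h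
            · rcases hQ'.mem_or_mem h with h | h
              · exact absurd h fun h => hQ'.ne_top (Ideal.eq_top_of_isUnit_mem _ h
                  ((isUnit_iff_ne_zero.2 hm0).map C))
              · rw [Finset.prod_eq_single a (fun b _ hb => by
                  simp [m0, Finsupp.single_eq_of_ne hb]) (by simp)] at h
                exact absurd (hQ'.mem_of_pow_mem _ h) ha
            · simp only [tt, map_prod, map_pow] at h
              obtain ⟨i, -, hi⟩ := hQ'.prod_mem_iff.1 h
              exact ⟨i, hQ'.mem_of_pow_mem _ hi⟩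
          simp only [inl, rename_X] at hi
          obtain ⟨c, hc⟩ := hvars Q' hQ' hQ'h _ hi
          rw [hc, map_mul, Polynomial.eval_mul, show w' (Sum.inl (tv i)) = emb (w (tv i)) from rfl,
            htv]
          simp only [pc]
          rw [pc_lin_emb, lin, Finsupp.sum_single_index (by simp), ZMod.natCast_self]
          simp
    have hnd : (pc (cls w' p Q)).natDegree < Fintype.card (Gp p r) := by
      rwa [natDegree_optionEquivLeft]
    exact pc.injective (by
      rw [map_zero]
      exact Polynomial.eq_zero_of_natDegree_lt_card_of_eval_eq_zero _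
        (neg_injective.comp hLinj) hroot hnd)
  -- count degrees in the extra coordinate
  let gs := (Finset.univ.erase a0).toList.map fun b => (g b, emb1 (D b + D a0))
  have hlen : gs.length + 1 = Fintype.card (Gp p r) := by
    simp only [gs, List.length_map, Finset.length_toList]
    exact Finset.card_erase_add_one (Finset.mem_univ a0)
  have hgs : ∀ x ∈ gs, IsWeightedHomogeneous w' x.1 x.2 := by
    intro x hx
    obtain ⟨b, -, rfl⟩ := List.mem_map.1 hx
    refine Submodule.sub_mem (weightedHomogeneousSubmodule ℂ w' _) ?_ ?_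
    · have := (hΦ b).mul (hinl _ _ (hφ a0))
      rwa [show emb1 (D b) + emb (D a0) = emb1 (D b + D a0) by
        simp only [emb1, emb, Finsupp.mapDomain_add]; abel] at this
    · have := (hΦ a0).mul (hinl _ _ (hφ b))
      rwa [show emb1 (D a0) + emb (D b) = emb1 (D b + D a0) by
        simp only [emb1, emb, Finsupp.mapDomain_add]; abel] at this
  let Z : MvPolynomial (Option (Co r)) (ZMod p) → Prop := fun x =>
    (pc x).degree < (gs.length : WithBot ℕ)
  have hz0 : Z 0 := by
    simp only [Z, map_zero, Polynomial.degree_zero]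
    exact WithBot.bot_lt_coe _
  have hfin := cut_induct hC w' hw'0 hp (inl (φ a0)) gs hgs Z hz0
    (fun x y hx hy => by
      simp only [Z, map_add] at *
      exact lt_of_le_of_lt (Polynomial.degree_add_le _ _) (max_lt hx hy)) R hRp hRh ?_
  · have hne : pc (cls w' p R) ≠ 0 := fun e => hRc (pc.injective (by rw [e, map_zero]))
    have hprod : ∀ l : List (Gp p r), (pc ((l.map fun b =>
        lin p (emb1 (D b + D a0))).prod)).degree = (l.length : WithBot ℕ) := by
      intro l
      induction l with
      | nil => simp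
      | cons b l ih =>
        rw [List.map_cons, List.prod_cons, map_mul, Polynomial.degree_mul, ih]
        simp only [pc, pc_lin_emb1, Polynomial.degree_X_add_C, List.length_cons]
        push_cast
        exact add_comm _ _
    simp only [Z, gs, List.map_map, map_mul, Polynomial.degree_mul, Function.comp_def] at hfin
    rw [hprod, Polynomial.degree_eq_natDegree hne, natDegree_optionEquivLeft, hR0] at hfin
    simp at hfin
  · intro Q G k hQ hQh hRQ hk hG hor
    have hb := hbound Q hQ hQh
    by_cases hn : inl (φ a0) ∈ Q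
    · have hst := codim_strict hP.1 (Ideal.comap_isPrime inl Q) (hPle hRQ)
        (g := φ a0) (Ideal.mem_comap.2 hn) ha0
      simp only [Z]
      refine lt_of_le_of_lt (Polynomial.degree_le_natDegree) ?_
      rw [natDegree_optionEquivLeft]
      have := degreeOf_mul_le none G (cls w' p Q)
      exact_mod_cast (show (G * cls w' p Q).degreeOf none < gs.length by omega)
    · have hall := hor.resolve_left hn
      have hmono := codim_mono (hPle hRQ)
      rw [hzero Q hQ hQh hRQ hn (fun b hb => hall _ (List.mem_map.2 ⟨b, by simp [hb], rfl⟩))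
        (by omega), mul_zero]
      exact hz0

end Vale.Agent.P199.K
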