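import Vale.Agent.P199.K.Mod.Elim
import Vale.Agent.P199.K.Mod.Homog
import Vale.Agent.P199.K.HS.Bot
import Vale.Agent.P199.K.HS.Trdeg

/-!
P199 (MODEL): for one matrix size, a good prime cutting out the conjugacy conditions of all the
given functions, and the point it defines.
-/

namespace Vale.Agent.P199.K.Model

open MvPolynomial Homog
open scoped BigOperators

variable {p r : ℕ}

/-- The nonzero elements of the group. -/
abbrev NZ (p r : ℕ) : Type := {b : Gp p r // b ≠ 0}

/-- The algebra generated by the roots, their inverses and the coordinates. -/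
noncomputable def gen {σ F : Type} [Field F] [Algebra ℂ F] (ex : XY p r → σ)
    (ψ : MvPolynomial σ ℂ →ₐ[ℂ] F) (u : Co r → F) : Subalgebra ℂ F :=
  Algebra.adjoin ℂ (Set.range u ∪ Set.range (fun i => (u i)⁻¹) ∪
    Set.range fun v => ψ (X (ex v)))

variable [NeZero r]

omit [NeZero r] in
theorem gen_u {σ F : Type} [Field F] [Algebra ℂ F] (ex : XY p r → σ)
    (ψ : MvPolynomial σ ℂ →ₐ[ℂ] F) (u : Co r → F) (i : Co r) :
    u i ∈ gen ex ψ u ∧ (u i)⁻¹ ∈ gen ex ψ u :=
  ⟨Algebra.subset_adjoin (Or.inl (Or.inl ⟨i, rfl⟩)),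
    Algebra.subset_adjoin (Or.inl (Or.inr ⟨i, rfl⟩))⟩

omit [NeZero r] in
/-- The point is inside the generated algebra, with the monomials of the roots. -/
theorem U_mem {σ F : Type} [Field F] [Algebra ℂ F] (ex : XY p r → σ)
    (ψ : MvPolynomial σ ℂ →ₐ[ℂ] F) (u : Co r → F) (d : Co r →₀ ℕ) :
    U u d ∈ gen ex ψ u ∧ (U u d)⁻¹ ∈ gen ex ψ u := by
  unfold U Finsupp.prod
  constructor
  · refine Subalgebra.prod_mem _ fun i _ => ?_
    show ((u i) ^ (d i))⁻¹ ∈ _
    rw [← inv_pow]
    exact Subalgebra.pow_mem _ (gen_u ex ψ u i).2 _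
  · rw [← Finset.prod_inv_distrib]
    refine Subalgebra.prod_mem _ fun i _ => ?_
    show (((u i) ^ (d i))⁻¹)⁻¹ ∈ _
    rw [inv_inv]
    exact Subalgebra.pow_mem _ (gen_u ex ψ u i).1 _

theorem pt_mem {σ F : Type} [Field F] [Algebra ℂ F] (ex : XY p r → σ)
    (ψ : MvPolynomial σ ℂ →ₐ[ℂ] F) (u : Co r → F) (c : MvPolynomial (XY p r) ℂ) :
    pt ex ψ u c ∈ gen ex ψ u := by
  induction c using MvPolynomial.induction_on with
  | C a =>
    rw [← algebraMap_eq, AlgHom.commutes]
    exact Subalgebra.algebraMap_mem _ _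
  | add a b ha hb => rw [map_add]; exact Subalgebra.add_mem _ ha hb
  | mul_X a v ha =>
    rw [map_mul]
    refine Subalgebra.mul_mem _ ha ?_
    rw [pt, aeval_X]
    exact Subalgebra.mul_mem _ (U_mem ex ψ u _).1 (Algebra.subset_adjoin (Or.inr ⟨v, rfl⟩))

variable [Fact p.Prime]

theorem W_zero : W p r 0 = 1 := by
  ext i j
  by_cases h : i = j
  · subst h
    simp [W]
    rfl
  · rw [Matrix.one_apply_ne h, W, if_neg]
    simpa using fun hh => h (hh.trans (by simp [Pi.zero_def]))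

theorem map_equiv {F : Type} [Field F] [Algebra ℂ F] (e : MvPolynomial (XY p r) ℂ →ₐ[ℂ] F)
    (c : Gp p r → MvPolynomial (XY p r) ℂ) :
    (∑ a, c a • WA p r (MvPolynomial (XY p r) ℂ) a).map e = ∑ a, e (c a) • WA p r F a := by
  ext i j
  simp only [Matrix.map_apply, Matrix.sum_apply, Matrix.smul_apply, WA, smul_eq_mul, map_sum,
    map_mul, AlgHom.commutes]

variable {k : ℕ} (f : Fin k → Matrix (Ix p r) (Ix p r) (MvPolynomial (XY p r) ℂ)) (n : Fin k → ℕ)

/-- A good prime for some of the functions. -/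
def State (S : Finset (Fin k)) : Prop :=
  ∃ (σ : Type) (_ : Fintype σ) (w : σ → Co r →₀ ℕ) (ex : XY p r → σ) (tv : Co r → σ)
    (P : Ideal (MvPolynomial σ ℂ)),
    (∀ v, w v ≠ 0) ∧ (∀ v, w (ex v) = W0 p r v) ∧ (∀ i, w (tv i) = Finsupp.single i p) ∧
    Good w p P ∧
    2 * (p ^ r) ^ 2 + 2 * r + codim P ≤ Fintype.card σ + ∑ i ∈ S, cN p r (n i) ∧
    ∀ (F : Type) [Field F] [Algebra ℂ F] (ψ : MvPolynomial σ ℂ →ₐ[ℂ] F), (∀ g ∈ P, ψ g = 0) →
      ∀ u : Co r → F, (∀ i, ψ (X (tv i)) = u i ^ p) → (∀ i, u i ≠ 0) →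
        (∀ v, ψ (X v) ∈ gen ex ψ u) ∧
        ∀ i ∈ S, HasRoot (p ^ n i) (p ^ (r - n i)) ((f i).map (pt ex ψ u))

theorem card_gp : Fintype.card (Gp p r) = (p ^ r) ^ 2 := by
  rw [Fintype.card_fun, ZMod.card, Fintype.card_sum, Fintype.card_fin, ← pow_mul, mul_two]

theorem state_empty : State f n ∅ := by
  have hp : p.Prime := Fact.out
  refine ⟨XY p r ⊕ Co r, inferInstance, Sum.elim (W0 p r) (fun i => Finsupp.single i p),
    Sum.inl, Sum.inr, ⊥, ?_, fun v => rfl, fun i => rfl, ?_, ?_, ?_⟩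
  · rintro (v | i)
    · exact tdeg_ne hp _
    · simp [hp.ne_zero]
  · refine Bot.good_bot _ ?_ p
    rintro (v | i)
    · exact tdeg_ne hp _
    · simp [hp.ne_zero]
  · rw [Bot.codim_bot, Finset.sum_empty, Fintype.card_sum, Fintype.card_sum, card_gp,
      Fintype.card_sum, Fintype.card_fin]
    omega
  · intro F _ _ ψ _ u ht hu
    refine ⟨?_, by simp⟩
    rintro (v | i)
    · exact Algebra.subset_adjoin (Or.inr ⟨v, rfl⟩)
    · rw [ht]
      exact Subalgebra.pow_mem _ (gen_u _ ψ u i).1 _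

theorem state_step (hcut : CutPin) (hvar : VarPin) (hren : RenamePin) (hprod : ProdPin)
    (hstart : StartPin) (hf : ∀ i, IsEquiv p r (f i)) (hn : ∀ i, n i < r) (S : Finset (Fin k))
    (j : Fin k) (hj : j ∉ S) (hS : State f n S) : State f n (insert j S) := by
  classical
  have hp : p.Prime := Fact.out
  obtain ⟨σ, _, w, ex, tv, P, hw, hex, htv, hP, hcnt, hpt⟩ := hS
  obtain ⟨c, hc, hfc⟩ := hf j
  obtain ⟨Q, hQ, hQc, hQroot⟩ := hstart p r (n j) (hn j)
  have hzt : ∀ v, ztWt p r v ≠ 0 := by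
    rintro (b | i)
    · exact tdeg_ne hp _
    · simp [ztWt, hp.ne_zero]
  obtain ⟨R, hR, hPR, hQR, hRc⟩ := hprod σ (ZT p r) (Co r) w (ztWt p r) hw hzt p hp P Q hP hQ
  let w' : σ ⊕ NZ p r → Co r →₀ ℕ := Sum.elim w fun b => tdeg p r b.1
  let W1 : (σ ⊕ NZ p r) ⊕ Co r → Co r →₀ ℕ := Sum.elim w' fun i => Finsupp.single i p
  let e : σ ⊕ ZT p r ≃ (σ ⊕ NZ p r) ⊕ Co r := (Equiv.sumAssoc σ (NZ p r) (Co r)).symm
  have hw' : ∀ v, w' v ≠ 0 := by
    rintro (v | b)
    exacts [hw v, tdeg_ne hp _]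
  have hW1 : ∀ v, W1 v ≠ 0 := by
    rintro (v | i)
    exacts [hw' v, by simp [W1, hp.ne_zero]]
  have he : (fun v => W1 (e v)) = Sum.elim w (ztWt p r) := by
    funext v
    rcases v with v | b | i <;> simp [W1, w', e, ztWt]
  obtain ⟨h1, h2⟩ := hren (σ ⊕ ZT p r) _ (Co r) e W1 p R (by rw [he]; exact hR)
  let q : Co r → MvPolynomial (σ ⊕ NZ p r) ℂ := fun i => X (Sum.inl (tv i))
  obtain ⟨Q2, hQ2, hRQ2, hQ2c⟩ := Elim.elim hren hvar hp W1 hW1 _ q h1
    (fun i => by
      show IsWeightedHomogeneous w' (X (Sum.inl (tv i))) (Finsupp.single i p)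
      rw [← htv i]
      exact isWeightedHomogeneous_X ℂ w' (Sum.inl (tv i)))
    (fun i => lin_single i)
  choose L φ hφ hφe using fun b : NZ p r => homogenize (fun v => Sum.inl (ex v))
    (fun i => Sum.inl (tv i)) w' hp hex htv (hc b.1)
  let g : NZ p r → MvPolynomial (σ ⊕ NZ p r) ℂ := fun b =>
    rename (fun i => Sum.inl (tv i)) (monomial (L b) (1 : ℂ)) * X (Sum.inr b) - φ b
  have hg : ∀ b, IsWeightedHomogeneous w' (g b) (tdeg p r b.1 + p • L b) := fun b => by
    refine IsWeightedHomogeneous.sub ?_ (hφ b)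
    rw [add_comm]
    exact (tmon_hom (fun i => Sum.inl (tv i)) w' htv (L b)).mul
      (isWeightedHomogeneous_X ℂ w' (Sum.inr b))
  obtain ⟨Q3, hQ3, hQ23, hgQ3, hQ3c⟩ := Elim.cuts hcut hp w' hw' g _ hg
    (fun b => lin_ne hp b.1 b.2 (L b)) Finset.univ Q2 hQ2
  refine ⟨σ ⊕ NZ p r, inferInstance, w', fun v => Sum.inl (ex v), fun i => Sum.inl (tv i), Q3,
    hw', hex, htv, hQ3, ?_, ?_⟩
  · rw [Fintype.card_sum, Finset.sum_insert hj]
    rw [Finset.card_univ] at hQ3c
    omega
  intro F _ _ ψ hψ u ht hu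
  have hincl : ∀ x ∈ R, ψ ((aeval (Sum.elim X q)) (rename e x)) = 0 := fun x hx =>
    hψ _ (hQ23 (hRQ2 (Ideal.mem_map_of_mem _ (Ideal.mem_map_of_mem _ hx))))
  have hold : ∀ x ∈ P, (ψ.comp (rename Sum.inl)) x = 0 := fun x hx => by
    have h := hincl _ (hPR (Ideal.mem_map_of_mem _ hx))
    have hcomp : ((aeval (Sum.elim X q)).comp (rename e)).comp (rename Sum.inl) =
        (rename Sum.inl : MvPolynomial σ ℂ →ₐ[ℂ] MvPolynomial (σ ⊕ NZ p r) ℂ) :=
      algHom_ext fun v => by simp [e]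
    rw [AlgHom.comp_apply, ← hcomp]
    exact h
  obtain ⟨hgen, hroot⟩ := hpt F (ψ.comp (rename Sum.inl)) hold u
    (fun i => by simpa using ht i) hu
  have hexpt : pt ex (ψ.comp (rename Sum.inl)) u = pt (fun v => Sum.inl (ex v)) ψ u :=
    algHom_ext fun v => by simp [pt]
  have hgen' : gen ex (ψ.comp (rename Sum.inl)) u = gen (fun v => Sum.inl (ex v)) ψ u := by
    simp [gen]
  have hz : ∀ b : NZ p r, U u (tdeg p r b.1) * ψ (X (Sum.inr b)) =
      pt (fun v => Sum.inl (ex v)) ψ u (c b.1) := fun b => by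
    have h0 := hψ _ (hgQ3 b (Finset.mem_univ _))
    simp only [g, map_sub, map_mul, sub_eq_zero] at h0
    rw [← hφe b F ψ u ht hu, ← h0, U_add]
    have h1 := psi_tmon (fun i => Sum.inl (tv i)) ψ u ht hu (L b)
    linear_combination -(U u (tdeg p r b.1) * ψ (X (Sum.inr b))) * h1
  constructor
  · rintro (v | b)
    · rw [← hgen']
      simpa using hgen v
    · have h : ψ (X (Sum.inr b)) = (U u (tdeg p r b.1))⁻¹ *
          pt (fun v => Sum.inl (ex v)) ψ u (c b.1) := by
        rw [← hz, inv_mul_cancel_left₀ (U_ne u hu _)]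
      rw [h]
      exact Subalgebra.mul_mem _ (U_mem _ ψ u _).2 (pt_mem _ ψ u _)
  intro i hi
  rcases Finset.mem_insert.1 hi with rfl | hi
  · let χ : MvPolynomial (ZT p r) ℂ →ₐ[ℂ] MvPolynomial (σ ⊕ NZ p r) ℂ :=
      aeval (Sum.elim (fun b => X (Sum.inr b)) q)
    have hχ : ∀ x ∈ Q, (ψ.comp χ) x = 0 := fun x hx => by
      have h := hincl _ (hQR (Ideal.mem_map_of_mem _ hx))
      have hcomp : ((aeval (Sum.elim X q)).comp (rename e)).comp (rename Sum.inr) = χ :=
        algHom_ext fun v => by rcases v with b | i <;> simp [e, χ]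
      rw [AlgHom.comp_apply, ← hcomp]
      exact h
    have h := hQroot F (ψ.comp χ) hχ u (fun i => by simpa [χ, q] using ht i) hu
      (pt (fun v => Sum.inl (ex v)) ψ u (c 0))
    rw [hfc, map_equiv, Fintype.sum_eq_add_sum_subtype_ne _ (0 : Gp p r)]
    convert h using 2
    · rw [WA, W_zero, Matrix.map_one _ (map_zero _) (map_one _)]
    · refine Finset.sum_congr rfl fun b _ => ?_
      rw [smul_smul, ← hz]
      simp [χ, U]
  · rw [← hexpt]
    exact hroot i hi

theorem state_all (hcut : CutPin) (hvar : VarPin) (hren : RenamePin) (hprod : ProdPin)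
    (hstart : StartPin) (hf : ∀ i, IsEquiv p r (f i)) (hn : ∀ i, n i < r) (S : Finset (Fin k)) :
    State f n S := by
  induction S using Finset.induction_on with
  | empty => exact state_empty f n
  | insert j S hj ih => exact state_step f n hcut hvar hren hprod hstart hf hn S j hj ih

end Vale.Agent.P199.K.Model

namespace Vale.Agent.P199.K

open MvPolynomial Homog Model

/-- One matrix size. -/
theorem modelPin (hcut : CutPin) (hvar : VarPin) (hren : RenamePin) (hprod : ProdPin)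
    (hdiv : DivPin) (hstart : StartPin) : ModelPin := by
  classical
  intro p r k _ _ f n hf hn
  have hp : p.Prime := Fact.out
  obtain ⟨σ, _, w, ex, tv, P, hw, hex, htv, hP, hcnt, hpt⟩ :=
    state_all f n hcut hvar hren hprod hstart hf hn Finset.univ
  haveI : P.IsPrime := hP.1
  let A := MvPolynomial σ ℂ ⧸ P
  haveI : IsDomain A := Ideal.Quotient.isDomain P
  let K := FractionRing A
  let F := AlgebraicClosure K
  let ι₀ : A →ₐ[ℂ] F :=
    (IsScalarTower.toAlgHom ℂ K F).comp (IsScalarTower.toAlgHom ℂ A K)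
  have hι : Function.Injective ι₀ :=
    (algebraMap K F).injective.comp (IsFractionRing.injective A K)
  let ψ : MvPolynomial σ ℂ →ₐ[ℂ] F := ι₀.comp (Ideal.Quotient.mkₐ ℂ P)
  have hker : RingHom.ker ψ = P := by
    ext x
    rw [RingHom.mem_ker]
    show ι₀ (Ideal.Quotient.mk P x) = 0 ↔ _
    rw [map_eq_zero_iff _ hι, Ideal.Quotient.eq_zero_iff_mem]
  have hψ0 : ∀ g ∈ P, ψ g = 0 := fun g hg => by
    rw [← hker] at hg; exact hg
  choose u hu using fun i => IsAlgClosed.exists_pow_nat_eq (ψ (X (tv i))) hp.pos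
  have hu0 : ∀ i, u i ≠ 0 := fun i h => by
    refine Elim.notMem hvar hp w hw P hP (tv i) (by rw [htv]; exact lin_single i) ?_
    rw [← hker, RingHom.mem_ker, ← hu i, h, zero_pow hp.ne_zero]
  have ht : ∀ i, ψ (X (tv i)) = u i ^ p := fun i => (hu i).symm
  obtain ⟨hgen, hroot⟩ := hpt F ψ hψ0 u ht hu0
  refine ⟨F, inferInstance, inferInstance, inferInstance, pt ex ψ u, ?_,
    fun i => hroot i (Finset.mem_univ i), ?_⟩
  · intro c hc hdet
    choose L φ hφ hφe using fun a => homogenize ex tv w hp hex htv (hc a)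
    have key : ∀ a, pt ex ψ u (c a) = U u (tdeg p r a + p • L a) * ψ (φ a) :=
      fun a => (hφe a F ψ u ht hu0).symm
    have hmem := hdiv σ p r w tv hw htv P hP F ψ hker u ht hu0 φ
      (fun a => tdeg p r a + p • L a) hφ
      (fun a i => by simp [tdeg_cast hp])
      (by
        refine Eq.trans ?_ hdet
        refine congrArg Matrix.det (Finset.sum_congr rfl fun a _ => ?_)
        rw [key a, ← smul_smul]
        rfl)
    intro a
    rw [key a, hψ0 _ (hmem a), mul_zero]
  · intro s z hz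
    let Z : Finset F := Finset.univ.image z ∪ Finset.univ.image u
    have hZz : Set.range z ⊆ (Z : Set F) := fun x hx => by
      obtain ⟨i, rfl⟩ := hx; simp [Z]
    set S := (Subalgebra.algebraicClosure (Algebra.adjoin ℂ (Z : Set F)) F).restrictScalars ℂ
      with hSdef
    have huS : ∀ i, u i ∈ S := fun i =>
      isAlgebraic_algebraMap (⟨u i, Algebra.subset_adjoin (by simp [Z])⟩ :
        Algebra.adjoin ℂ (Z : Set F))
    have huS' : ∀ i, (u i)⁻¹ ∈ S := fun i => IsAlgebraic.inv (huS i)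
    have hUS : ∀ d, (U u d)⁻¹ ∈ S := fun d => by
      unfold U Finsupp.prod
      rw [← Finset.prod_inv_distrib]
      refine Subalgebra.prod_mem _ fun i _ => ?_
      rw [inv_inv]
      exact Subalgebra.pow_mem _ (huS i) _
    have hxS : ∀ v, ψ (X (ex v)) ∈ S := fun v => by
      have h1 : pt ex ψ u (X v) ∈ S := by
        have := (AlgebraicIndependent.matroid ℂ F).closure_subset_closure hZz
        rw [AlgebraicIndependent.matroid_closure_eq, AlgebraicIndependent.matroid_closure_eq]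
          at this
        exact this (hz v)
      have : ψ (X (ex v)) = (U u (W0 p r v))⁻¹ * pt ex ψ u (X v) := by
        rw [pt, aeval_X, inv_mul_cancel_left₀ (U_ne u hu0 _)]
      rw [this]
      exact Subalgebra.mul_mem _ (hUS _) h1
    have hle : gen ex ψ u ≤ S := Algebra.adjoin_le <|
      Set.union_subset (Set.union_subset (Set.range_subset_iff.2 huS) (Set.range_subset_iff.2 huS'))
        (Set.range_subset_iff.2 hxS)
    have halg : ∀ a : A, ι₀ a ∈ S := fun a => by
      obtain ⟨x, rfl⟩ := Ideal.Quotient.mk_surjective a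
      show ψ x ∈ S
      induction x using MvPolynomial.induction_on with
      | C a =>
        rw [← algebraMap_eq, AlgHom.commutes]
        exact Subalgebra.algebraMap_mem _ _
      | add a b ha hb => rw [map_add]; exact Subalgebra.add_mem _ ha hb
      | mul_X a v ha => rw [map_mul]; exact Subalgebra.mul_mem _ ha (hle (hgen v))
    have hZ : Z.card ≤ s + 2 * r := by
      refine (Finset.card_union_le _ _).trans (add_le_add ?_ ?_)
      · exact Finset.card_image_le.trans (by simp)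
      · exact Finset.card_image_le.trans (by simp [two_mul])
    have htr : (Algebra.trdeg ℂ A).toNat ≤ s + 2 * r := by
      have h := Cardinal.toNat_le_toNat (Trdeg.trdeg_le_of_algebraic ι₀ hι Z halg)
        Cardinal.natCast_lt_aleph0
      rw [Cardinal.toNat_natCast] at h
      exact h.trans hZ
    have hcod : codim P = Fintype.card σ - (Algebra.trdeg ℂ A).toNat := rfl
    omega

end Vale.Agent.P199.K
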