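import Vale.Agent.P199.K.Pins

/-!
P199, ROOT: the formal `m`-th root of a monic polynomial, top-down, is given by the binomial series
of exponent `1 / m`.
-/

namespace Vale.Agent.P199.K

open PowerSeries

namespace RootProof

theorem descPochhammer_smeval_eq_prod (x : ℚ) (k : ℕ) :
    (descPochhammer ℤ k).smeval x = ∏ j ∈ Finset.range k, (x - j) := by
  induction k with
  | zero => simp [descPochhammer_zero, Polynomial.smeval_one]
  | succ k ih =>
    rw [descPochhammer_succ_right, Finset.prod_range_succ, ← ih,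
      Polynomial.smeval_mul, Polynomial.smeval_sub, Polynomial.smeval_X,
      Polynomial.smeval_natCast]
    simp

theorem choose_eq_prod (x : ℚ) (k : ℕ) :
    Ring.choose x k = (∏ j ∈ Finset.range k, (x - j)) / k.factorial := by
  rw [Ring.choose_eq_smul, descPochhammer_smeval_eq_prod, smul_eq_mul, div_eq_inv_mul]

/-- The binomial series of exponent `1 / m` is an `m`-th root of `1 + X`. -/
theorem binomialSeries_inv_pow (m : ℕ) (hm : 0 < m) :
    PowerSeries.binomialSeries ℚ ((1 : ℚ) / m) ^ m = (1 + PowerSeries.X : ℚ⟦X⟧) := by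
  have key : ∀ j : ℕ, PowerSeries.binomialSeries ℚ ((1 : ℚ) / m) ^ j
      = PowerSeries.binomialSeries ℚ ((j : ℚ) * (1 / m)) := by
    intro j
    induction j with
    | zero => simp
    | succ j ih =>
      rw [pow_succ, ih, ← binomialSeries_add]
      congr 1
      push_cast
      ring
  rw [key, mul_one_div_cancel (by exact_mod_cast hm.ne')]
  simpa using binomialSeries_nat (R := ℚ) (A := ℚ) 1

/-- Two power series of constant term `1` with equal `m`-th powers agree. -/
theorem eq_of_pow_eq {R : Type} [CommRing R] [Algebra ℚ R] {U V : R⟦X⟧} {m : ℕ} (hm : 0 < m)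
    (hU : constantCoeff U = 1) (hV : constantCoeff V = 1) (h : U ^ m = V ^ m) : U = V := by
  set S := ∑ i ∈ Finset.range m, U ^ i * V ^ (m - 1 - i) with hS
  have hmul : S * (U - V) = 0 := by
    rw [hS, geom_sum₂_mul, h, sub_self]
  have hu : IsUnit S := by
    rw [isUnit_iff_constantCoeff]
    have : constantCoeff S = algebraMap ℚ R (m : ℚ) := by
      simp [hS, map_sum, hU, hV]
    rw [this]
    exact (isUnit_iff_ne_zero.2 (by exact_mod_cast hm.ne')).map _
  exact sub_eq_zero.1 ((IsUnit.mul_right_eq_zero hu).1 hmul)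

end RootProof

open RootProof in
theorem rootPin : RootPin := by
  intro R _ _ q N m hq hdeg hm l hl
  set Q : Polynomial R := q.reflect N with hQ
  have hpow : ∀ j : ℕ, (q ^ j).reflect (N * j) = Q ^ j := by
    intro j
    induction j with
    | zero => simp
    | succ j ih =>
      rw [pow_succ, pow_succ, Nat.mul_succ, Polynomial.reflect_mul _ _ ?_ hdeg.le, ih]
      calc (q ^ j).natDegree ≤ j * q.natDegree := Polynomial.natDegree_pow_le
        _ = N * j := by rw [hdeg, mul_comm]
  have hQ0 : Q.coeff 0 = 1 := by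
    rw [hQ, Polynomial.coeff_reflect, Polynomial.revAt_le (Nat.zero_le N), Nat.sub_zero,
      ← hdeg, hq.coeff_natDegree]
  have hQcc : constantCoeff (Q : R⟦X⟧) = 1 := by
    rw [Polynomial.constantCoeff_coe, hQ0]
  set g : R⟦X⟧ := (Q : R⟦X⟧) ^ m - 1 with hg
  have hg0 : constantCoeff g = 0 := by simp [hg, hQcc]
  have hs : HasSubst g := HasSubst.of_constantCoeff_zero' hg0
  set B : ℚ⟦X⟧ := PowerSeries.binomialSeries ℚ ((1 : ℚ) / m) with hB
  have hroot : subst g B = (Q : R⟦X⟧) := by
    refine eq_of_pow_eq hm ?_ hQcc ?_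
    · rw [← coeff_zero_eq_constantCoeff_apply, coeff_subst' hs, finsum_eq_single _ 0]
      · simp [hB]
      · intro d hd
        simp [map_pow, hg0, zero_pow hd]
    · rw [← subst_pow hs, binomialSeries_inv_pow m hm, ← coe_substAlgHom hs, map_add, map_one,
        substAlgHom_X, hg]
      ring
  have hcoeff := congrArg (PowerSeries.coeff l) hroot
  rw [Polynomial.coeff_coe, hQ, Polynomial.coeff_reflect, Polynomial.revAt_le hl,
    coeff_subst' hs] at hcoeff
  rw [← hcoeff, rootCoeff, hpow, Polynomial.finsetSum_coeff]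
  rw [finsum_eq_sum_of_support_subset _ (s := Finset.range (l + 1)) ?_]
  · refine Finset.sum_congr rfl fun k _ => ?_
    rw [hB, binomialSeries_coeff, choose_eq_prod, smul_eq_mul, mul_one, algebraMap_smul,
      Polynomial.coeff_smul, ← Polynomial.coeff_coe]
    simp [hg]
  · intro k hk
    simp only [Function.mem_support, ne_eq] at hk
    rw [Finset.mem_coe, Finset.mem_range]
    by_contra hlk
    apply hk
    have hdvd : (PowerSeries.X : R⟦X⟧) ^ k ∣ g ^ k :=
      pow_dvd_pow_of_dvd (PowerSeries.X_dvd_iff.2 hg0) k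
    rw [(PowerSeries.X_pow_dvd_iff.1 hdvd) l (by omega), smul_zero]

end Vale.Agent.P199.K
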