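import Vale.Agent.P199.K.Start.Forms
import Vale.Agent.P199.K.Start.Pivots
import Vale.Agent.P199.K.Start.Phi
import Vale.Agent.P199.K.Start.Chain
import Vale.Agent.P199.K.Start.Jac

/-!
P199: the start, `startPin : CorePin → StartPin`. The prime of the conjugates of block scalar
matrices has the expected codimension and a class nonzero modulo `p`.
-/

namespace Vale.Agent.P199.K.Start

open MvPolynomial
open Vale.Agent.P199.K.Cut
open scoped BigOperators

noncomputable section

variable {p r : ℕ} [Fact p.Prime] [NeZero r] (n : ℕ)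

lemma ztWt_ne_zero : ∀ v : ZT p r, ztWt p r v ≠ 0 := by
  rintro (b | i) h
  · refine b.2 (funext fun i => (ZMod.val_eq_zero _).1 ?_)
    have := DFunLike.congr_fun h i
    rwa [show ztWt p r (Sum.inl b) = tdeg p r b.1 from rfl, tdeg_ne_zero_apply b.2] at this
  · exact (Fact.out (p := p.Prime)).ne_zero
      (Finsupp.single_eq_zero.1 (show Finsupp.single i p = 0 from h))

theorem good_parP (hcore : CorePin) (hn : n ≤ r) :
    Good (ztWt p r) p (parP (p := p) (r := r) n) ∧
      codim (parP (p := p) (r := r) n) = cN p r n := by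
  classical
  set w := ztWt p r
  set ν : ZT p r → ℕ := nuW n
  set a : ZT p r → KB p r := apt n
  set c := cN p r n
  set P := parP (p := p) (r := r) n
  have hw : ∀ v, w v ≠ 0 := ztWt_ne_zero
  have hP : P.IsPrime := parP_isPrime n
  have hPh : IsHom w P := isHom_parP n
  obtain ⟨g, l, hg, hl, hAg⟩ := exists_eigen (p := p) (r := r) n
  obtain ⟨f, d, hfP, hfd, hLI, hker⟩ := exists_forms n hn hg hl hAg
  let ell : Fin c → MvPolynomial (ZT p r) ℂ := fun i => weightedHomogeneousComponent ν 1 (f i)
  have hell : ∀ i, IsWeightedHomogeneous ν (ell i) 1 := fun i =>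
    weightedHomogeneousComponent_isWeightedHomogeneous 1 (f i)
  have hd : ∀ i, IsWeightedHomogeneous w (ell i) (d i) := fun i => component_hom w ν (hfd i) 1
  have hA : ∀ h : MvPolynomial (ZT p r) ℂ, IsWeightedHomogeneous ν h 0 → aeval a h = 0 → h = 0 :=
    fun h h1 h2 => apt_generic n h1 h2
  have hmin : ∀ j (hj : j ≤ c), ∃ piv : Fin j → ZT p r, (∀ k, ν (piv k) = 1) ∧
      aeval a (pivMat (fun i => ell (Fin.castLE hj i)) piv).det ≠ 0 := by
    intro j hj
    obtain ⟨piv, hpiv⟩ := exists_pivots (fun i => row n (f (Fin.castLE hj i)))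
      (hLI.comp _ (Fin.castLE_injective hj))
    refine ⟨fun k => (piv k).1, fun k => (piv k).2, ?_⟩
    rw [AlgHom.map_det]
    exact hpiv
  obtain ⟨piv, hpiv, hdet⟩ := hmin c le_rfl
  simp only [Fin.castLE_refl, id] at hdet
  set L := linIdeal ν a ell
  have hν : ∀ v, ν v ≤ 1 := nuW_le n
  have hLp : L.IsPrime := linIdeal_isPrime ν a ell piv hν hell hA hpiv hdet
  have hLh : IsHom w L := linIdeal_isHom w ν a ell piv hν hell hA hpiv hdet d hd
  have hLc : codim L = c := codim_linIdeal ν a ell piv hν hell hA hpiv hdet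
  -- the initial ideal of the prime agrees with the linear space near the base point
  have hIL : ini w ν P ≤ L := by
    rw [ini, Ideal.span_le]
    rintro _ ⟨h, hhP, e, j, hhe, hlow, rfl⟩
    refine (mem_linIdeal ν a ell).2 fun x hx => ?_
    exact initial_vanish n hg hl hAg hx.1 (hker x hx.1 hx.2) hhP j hlow
  have hell_mem : Ideal.span (Set.range ell) ≤ ini w ν P := by
    rw [Ideal.span_le]
    rintro _ ⟨i, rfl⟩
    refine Ideal.subset_span ⟨f i, hfP i, d i, 1, hfd i, fun k hk => ?_, rfl⟩
    obtain rfl : k = 0 := by omega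
    exact comp0_parP n (hfP i)
  -- the codimension is at least `c`
  have hminor : (Matrix.of fun i j => pderiv (piv j) (f i)).det ∉ P := by
    intro hmem
    refine hdet ((?_ : _ = _).trans (apt_kill n hmem))
    rw [AlgHom.map_det, AlgHom.map_det]
    congr 1
    ext i j
    exact (aeval_apt_pderiv n (hpiv j) (f i)).symm
  have hge : c ≤ codim P := codim_ge_of_minor hP f piv hfP hminor
  have hks : kshift w (ini w ν P) = kshift w P := by rw [kshift, kshift, kpoly_ini w ν hw P]
  obtain ⟨hlowP, -⟩ := (hcore (ZT p r) (Co r) w hw).2.2 P hP hPh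
  -- the class
  have hΦ : ∀ v, ν v = 0 → phiR p r n (linZ (w v)) = 0 := fun v hv => phiR_base n v hv
  have hloc := localStep w (phiR p r n) ν hcore hw hΦ (ini_isHom w ν P) hLh hIL
    (det_weight_zero ν ell piv hell hpiv) (det_not_mem ν a ell piv hν hell hA hpiv hdet)
    (fun h hh => (exists_pow_mem ν a ell piv hν hell hA hpiv hdet hh).imp fun k hk => hell_mem hk)
    (fun j hj => by rw [hks]; exact hlowP j (by omega))
  rw [hks, hLc] at hloc
  have hcodim : codim P = c := by
    refine le_antisymm ?_ hge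
    by_contra hlt
    exact hloc.2 (hlowP c (by omega))
  have hphi : phiR p r n (lowZ w P) ≠ 0 := by
    rw [lowZ, hcodim, hloc.1, chain w (phiR p r n) ν a hcore hw hΦ hν hA ell hell d hd hmin,
      Finset.prod_ne_zero_iff]
    intro i _
    refine phiR_form n (hd i) (hell i) ?_
    intro h0
    refine hLI.ne_zero i (funext fun v => ?_)
    show aeval a (pderiv v.1 (ell i)) = 0
    rw [h0, map_zero, map_zero]
  exact ⟨⟨hP, hPh, cls_ne_zero_of_phiR n hphi⟩, hcodim⟩

end

end Vale.Agent.P199.K.Start

namespace Vale.Agent.P199.K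

theorem startPin (hcore : CorePin) : StartPin := by
  intro p r n _ _ hn
  obtain ⟨h1, h2⟩ := Start.good_parP (p := p) (r := r) n hcore hn.le
  exact ⟨Start.parP n, h1, h2.le, fun F _ _ ψ hψ u hu hu0 c =>
    Start.parP_hasRoot n hn.le F ψ hψ u hu hu0 c⟩

end Vale.Agent.P199.K
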