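import Vale.Agent.P199.K.Pins

/-!
P199, TRI: two matrices over an algebraically closed field whose words satisfy the standard identity
of degree `2 d` are block triangular with blocks of size at most `d` in a suitable basis (Burnside's
theorem), hence depend on at most `(3 M ^ 2 + d M) / 2` parameters.
-/

namespace Vale.Agent.P199.K

open scoped BigOperators

namespace TriProof

/-! ## The standard identity passes to spans and to images -/

/-- The standard identity is multilinear, so it passes from a set to its span. -/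
theorem satisfiesStd_span {F A : Type} [Field F] [Ring A] [Algebra F A] {k : ℕ} {S : Set A}
    (h : SatisfiesStd k S) : SatisfiesStd k (Submodule.span F S : Set A) := by
  classical
  let f : MultilinearMap F (fun _ : Fin k => A) A :=
    ∑ e : Equiv.Perm (Fin k), ((Equiv.Perm.sign e : ℤˣ) : ℤ) •
      (MultilinearMap.mkPiAlgebraFin F k A).domDomCongr e
  have hf : ∀ v : Fin k → A, f v = ∑ e : Equiv.Perm (Fin k),
      ((Equiv.Perm.sign e : ℤˣ) : ℤ) • (List.ofFn fun i => v (e i)).prod := by
    intro v
    simp [f, sum_apply]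
  have key : ∀ t : Finset (Fin k), ∀ v : Fin k → A,
      (∀ i ∈ t, v i ∈ Submodule.span F S) → (∀ i, i ∉ t → v i ∈ S) → f v = 0 := by
    intro t
    induction t using Finset.induction with
    | empty =>
      intro v _ hv
      rw [hf]
      exact h v fun i => hv i (Finset.notMem_empty i)
    | @insert j t hj ih =>
      intro v hin hout
      have hle : Submodule.span F S ≤ LinearMap.ker (f.toLinearMap v j) := by
        rw [Submodule.span_le]
        intro x hx
        rw [SetLike.mem_coe, LinearMap.mem_ker, MultilinearMap.toLinearMap_apply]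
        refine ih _ (fun i hi => ?_) fun i hi => ?_
        · rw [Function.update_of_ne (by rintro rfl; exact hj hi)]
          exact hin i (Finset.mem_insert_of_mem hi)
        · rcases eq_or_ne i j with rfl | hij
          · rwa [Function.update_self]
          · rw [Function.update_of_ne hij]
            exact hout i (by simp [hij, hi])
      have := hle (hin j (Finset.mem_insert_self j t))
      rw [LinearMap.mem_ker, MultilinearMap.toLinearMap_apply] at this
      simpa using this
  intro v hv
  rw [← hf]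
  exact key Finset.univ v (fun i _ => hv i) fun i hi => absurd (Finset.mem_univ i) hi

/-- The standard identity passes to the image under a ring homomorphism. -/
theorem satisfiesStd_image {R T : Type} [Ring R] [Ring T] {k : ℕ} {S : Set R} (f : R →+* T)
    (h : SatisfiesStd k S) : SatisfiesStd k (f '' S) := by
  intro v hv
  choose u hu huv using hv
  have := congrArg f (h u hu)
  rw [map_sum, map_zero] at this
  rw [← this]
  refine Finset.sum_congr rfl fun e _ => ?_
  simp only [map_zsmul, map_list_prod, List.map_ofFn, Function.comp_def, huv]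

/-- The standard identity passes from a subring to a subring as an abstract ring. -/
theorem satisfiesStd_subtype {R : Type} [Ring R] {k : ℕ} {S : Set R} (U : Subring R)
    (h : SatisfiesStd k S) : SatisfiesStd k ((↑) ⁻¹' S : Set U) := by
  intro v hv
  apply Subtype.ext
  have := h (fun i => (v i : R)) hv
  rw [ZeroMemClass.coe_zero, ← this, AddSubmonoidClass.coe_finsetSum]
  refine Finset.sum_congr rfl fun e _ => ?_
  simp only [AddSubgroupClass.coe_zsmul, SubmonoidClass.coe_list_prod, List.map_ofFn,
    Function.comp_def]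

/-- The words in two elements satisfy the standard identity. -/
def Std {R : Type} [Ring R] (d : ℕ) (a b : R) : Prop :=
  SatisfiesStd (2 * d) ((Subring.closure {a, b} : Subring R) : Set R)

theorem Std.map {R T : Type} [Ring R] [Ring T] {d : ℕ} {a b : R} (f : R →+* T) (h : Std d a b) :
    Std d (f a) (f b) := by
  have := satisfiesStd_image f h
  rwa [← Subring.coe_map, RingHom.map_closure, Set.image_pair] at this

theorem Std.restrict {R : Type} [Ring R] {d : ℕ} {a b : R} (U : Subring R) (ha : a ∈ U)
    (hb : b ∈ U) (h : Std d a b) : Std d (⟨a, ha⟩ : U) ⟨b, hb⟩ := by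
  intro v hv
  refine satisfiesStd_subtype U h v fun i => ?_
  have hle : Subring.closure {(⟨a, ha⟩ : U), ⟨b, hb⟩} ≤
      (Subring.closure {a, b}).comap U.subtype := by
    rw [Subring.closure_le]
    rintro x (rfl | rfl)
    · exact Subring.subset_closure (Set.mem_insert _ _)
    · exact Subring.subset_closure (Set.mem_insert_of_mem _ rfl)
  exact hle (hv i)

/-- The standard identity for words gives it for the generated algebra. -/
theorem Std.adjoin {F R : Type} [Field F] [Ring R] [Algebra F R] {d : ℕ} {a b : R}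
    (h : Std d a b) :
    SatisfiesStd (2 * d) ((Algebra.adjoin F ({a, b} : Set R) : Subalgebra F R) : Set R) := by
  intro v hv
  refine satisfiesStd_span (F := F) h v fun i => ?_
  have hi : v i ∈ Subalgebra.toSubmodule (Algebra.adjoin F ({a, b} : Set R)) := hv i
  rw [Algebra.adjoin_eq_span] at hi
  refine Submodule.span_mono ?_ hi
  exact show Submonoid.closure {a, b} ≤ (Subring.closure {a, b}).toSubmonoid from
    Submonoid.closure_le.2 Subring.subset_closure

/-! ## The full matrix algebra violates the identity -/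

/-- The product of a sequence of matrix units. -/
theorem prod_single {F ι : Type} [CommRing F] [Fintype ι] [DecidableEq ι] :
    ∀ (k : ℕ) (f g : Fin (k + 1) → ι),
      (List.ofFn fun i => Matrix.single (f i) (g i) (1 : F)).prod =
        if ∀ i : Fin k, g i.castSucc = f i.succ then Matrix.single (f 0) (g (Fin.last k)) 1
        else 0 := by
  intro k
  induction k with
  | zero => intro f g; simp
  | succ k ih =>
    intro f g
    rw [List.ofFn_succ, List.prod_cons, ih (fun i => f i.succ) (fun i => g i.succ)]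
    by_cases h : ∀ i : Fin k, g i.castSucc.succ = f i.succ.succ
    · rw [if_pos h]
      by_cases h0 : g 0 = f (0 : Fin (k + 1)).succ
      · rw [if_pos, h0, Matrix.single_mul_single_same, one_mul, Fin.succ_last]
        intro i
        refine Fin.cases ?_ (fun j => ?_) i
        · simpa using h0
        · simpa using h j
      · rw [Matrix.single_mul_single_of_ne _ _ _ _ h0, if_neg]
        intro hc
        exact h0 (by simpa using hc 0)
    · rw [if_neg h, mul_zero, if_neg]
      intro hc
      exact h fun i => by simpa using hc i.succ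

/-- Matrices of size larger than `d` violate the standard identity of degree `2 d`. -/
theorem not_std_univ {F ι : Type} [Field F] [Fintype ι] [DecidableEq ι] {d : ℕ}
    (hd : d < Fintype.card ι) : ¬ SatisfiesStd (2 * d) (Set.univ : Set (Matrix ι ι F)) := by
  classical
  intro h
  have : Nonempty ι := Fintype.card_pos_iff.1 (by omega)
  obtain ⟨emb⟩ : Nonempty (Fin (d + 1) ↪ ι) :=
    Function.Embedding.nonempty_of_card_le (by simpa using hd)
  rcases Nat.eq_zero_or_pos d with rfl | hd0
  · exact one_ne_zero (α := Matrix ι ι F)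
      (by simpa using h (fun i => i.elim0) (fun i => i.elim0))
  obtain ⟨k, hk⟩ : ∃ k, 2 * d = k + 1 := ⟨2 * d - 1, by omega⟩
  rw [hk] at h
  let f : Fin (k + 1) → ι := fun i => emb ⟨i.val / 2, by omega⟩
  let g : Fin (k + 1) → ι := fun i => emb ⟨(i.val + 1) / 2, by omega⟩
  have hsum := h (fun i => Matrix.single (f i) (g i) (1 : F)) (fun _ => Set.mem_univ _)
  have hid : ∀ i : Fin k, g i.castSucc = f i.succ := fun i => rfl
  rw [Finset.sum_eq_single 1] at hsum
  · simp only [Equiv.Perm.sign_one, Units.val_one, one_smul, Equiv.Perm.coe_one, id_eq,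
      prod_single, if_pos hid] at hsum
    exact (one_ne_zero (α := F))
      (by simpa using congrFun (congrFun hsum (f 0)) (g (Fin.last k)))
  · intro e _ he
    rw [prod_single k (fun i => f (e i)) (fun i => g (e i)), if_neg, smul_zero]
    intro hc
    apply he
    have hmono : StrictMono e := by
      refine Fin.strictMono_iff_lt_succ.2 fun i => ?_
      have h1 : (((e i.castSucc : Fin (k + 1)) : ℕ) + 1) / 2 = ((e i.succ : Fin (k + 1)) : ℕ) / 2 :=
        congrArg Fin.val (emb.injective (hc i))
      have h2 : ((e i.castSucc : Fin (k + 1)) : ℕ) ≠ ((e i.succ : Fin (k + 1)) : ℕ) :=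
        fun hh => (Fin.castSucc_lt_succ (i := i)).ne (e.injective (Fin.ext hh))
      rw [Fin.lt_def]
      omega
    ext i
    have := (hmono.range_inj strictMono_id).1 (by simp [e.surjective.range_eq])
    simp [this]
  · simp

/-! ## Burnside's theorem -/

/-- An algebra of endomorphisms without invariant subspace contains every endomorphism. -/
theorem burnside {F V : Type} [Field F] [IsAlgClosed F] [AddCommGroup V] [Module F V]
    [FiniteDimensional F V] [Nontrivial V] (S : Subalgebra F (Module.End F V))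
    (h : ∀ W : Submodule F V, (∀ a ∈ S, ∀ v ∈ W, a v ∈ W) → W = ⊥ ∨ W = ⊤) : S = ⊤ := by
  classical
  have : IsSimpleModule S V := by
    refine isSimpleModule_iff S V |>.2 ⟨fun N => ?_⟩
    rcases h (N.restrictScalars F) (fun a ha v hv => N.smul_mem ⟨a, ha⟩ hv) with h0 | h1
    · exact Or.inl ((Submodule.restrictScalars_eq_bot_iff F S V).1 h0)
    · exact Or.inr ((Submodule.restrictScalars_eq_top_iff F S V).1 h1)
  rw [eq_top_iff]
  intro f _
  have hcomm : ∀ (g : Module.End S V) (v : V), f (g v) = g (f v) := by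
    intro g v
    obtain ⟨c, rfl⟩ := (IsSimpleModule.algebraMap_end_bijective_of_isAlgClosed F).2 g
    simp [Module.algebraMap_end_apply]
  let φ : Module.End (Module.End S V) V :=
    { toFun := f
      map_add' := f.map_add
      map_smul' := fun g v => hcomm g v }
  let b := Module.finBasis F V
  obtain ⟨r, hr⟩ := jacobson_density φ (Finset.univ.image b)
  have hfr : f = (r : Module.End F V) :=
    b.ext fun i => hr (b i) (Finset.mem_image_of_mem b (Finset.mem_univ i))
  rw [hfr]
  exact r.2

/-- A pair of large matrices satisfying the identity has a proper invariant subspace. -/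
theorem exists_invariant {F ι : Type} [Field F] [IsAlgClosed F] [Fintype ι] [DecidableEq ι]
    {A B : Matrix ι ι F} {d : ℕ} (h : Std d A B) (hd : d < Fintype.card ι) :
    ∃ W : Submodule F (ι → F), W ≠ ⊥ ∧ W ≠ ⊤ ∧
      ∀ v ∈ W, A.mulVec v ∈ W ∧ B.mulVec v ∈ W := by
  classical
  have : Nonempty ι := Fintype.card_pos_iff.1 (by omega)
  by_contra hc
  push Not at hc
  let φ : Matrix ι ι F ≃ₐ[F] Module.End F (ι → F) := Matrix.toLinAlgEquiv'
  let S := (Algebra.adjoin F ({A, B} : Set (Matrix ι ι F))).map φ.toAlgHom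
  have hS : S = ⊤ := by
    refine burnside S fun W hW => ?_
    by_contra hW2
    push Not at hW2
    obtain ⟨v, hv, hv'⟩ := hc W hW2.1 hW2.2
    have hA : A.mulVec v ∈ W := by
      have := hW (φ A) ⟨A, Algebra.subset_adjoin (Set.mem_insert _ _), rfl⟩ v hv
      simpa [φ] using this
    have hB : B.mulVec v ∈ W := by
      have := hW (φ B) ⟨B, Algebra.subset_adjoin (Set.mem_insert_of_mem _ rfl), rfl⟩ v hv
      simpa [φ] using this
    exact hv' hA hB
  refine not_std_univ (F := F) hd fun v _ => h.adjoin (F := F) v fun i => ?_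
  obtain ⟨X, hX, hXv⟩ : φ (v i) ∈ S := hS ▸ Algebra.mem_top
  rw [← φ.injective hXv]
  exact hX

/-! ## One step of block triangularisation -/

/-- Upper block triangular matrices. -/
def upper (J K F : Type) [Fintype J] [Fintype K] [DecidableEq J] [DecidableEq K] [CommRing F] :
    Subring (Matrix (J ⊕ K) (J ⊕ K) F) where
  carrier := {X | X.toBlocks₂₁ = 0}
  mul_mem' := by
    intro X Y hX hY
    simp only [Set.mem_ofPred_eq] at hX hY ⊢
    rw [← Matrix.fromBlocks_toBlocks X, ← Matrix.fromBlocks_toBlocks Y, Matrix.fromBlocks_multiply,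
      hX, hY]
    simp
  one_mem' := by
    ext i j
    simp [Matrix.toBlocks₂₁]
  add_mem' := by
    intro X Y hX hY
    simp only [Set.mem_ofPred_eq] at hX hY ⊢
    ext i j
    have h1 := congrFun (congrFun hX i) j
    have h2 := congrFun (congrFun hY i) j
    simp [Matrix.toBlocks₂₁] at h1 h2 ⊢
    simp [h1, h2]
  zero_mem' := by
    ext i j
    simp [Matrix.toBlocks₂₁]
  neg_mem' := by
    intro X hX
    simp only [Set.mem_ofPred_eq] at hX ⊢
    ext i j
    have h1 := congrFun (congrFun hX i) j
    simp [Matrix.toBlocks₂₁] at h1 ⊢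
    simp [h1]

variable {J K F : Type} [Fintype J] [Fintype K] [DecidableEq J] [DecidableEq K] [CommRing F]

/-- The first diagonal block. -/
def block₁ : upper J K F →+* Matrix J J F where
  toFun X := X.1.toBlocks₁₁
  map_one' := by
    ext i j
    simp [Matrix.toBlocks₁₁, Matrix.one_apply]
  map_mul' X Y := by
    have hY : Y.1.toBlocks₂₁ = 0 := Y.2
    show (X.1 * Y.1).toBlocks₁₁ = _
    conv_lhs => rw [← Matrix.fromBlocks_toBlocks X.1, ← Matrix.fromBlocks_toBlocks Y.1,
      Matrix.fromBlocks_multiply, Matrix.toBlocks_fromBlocks₁₁, hY, Matrix.mul_zero, add_zero]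
  map_zero' := rfl
  map_add' _ _ := rfl

/-- The second diagonal block. -/
def block₂ : upper J K F →+* Matrix K K F where
  toFun X := X.1.toBlocks₂₂
  map_one' := by
    ext i j
    simp [Matrix.toBlocks₂₂, Matrix.one_apply]
  map_mul' X Y := by
    have hX : X.1.toBlocks₂₁ = 0 := X.2
    show (X.1 * Y.1).toBlocks₂₂ = _
    conv_lhs => rw [← Matrix.fromBlocks_toBlocks X.1, ← Matrix.fromBlocks_toBlocks Y.1,
      Matrix.fromBlocks_multiply, Matrix.toBlocks_fromBlocks₂₂, hX, Matrix.zero_mul, zero_add]
  map_zero' := rfl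
  map_add' _ _ := rfl

/-- Conjugation by an invertible element. -/
def conj {R : Type} [Ring R] (L L' : R) (h1 : L * L' = 1) (h2 : L' * L = 1) : R →+* R where
  toFun X := L' * X * L
  map_one' := by rw [mul_one, h2]
  map_mul' X Y := by
    simp only [mul_assoc]
    rw [← mul_assoc L L', h1, one_mul]
  map_zero' := by simp
  map_add' X Y := by rw [mul_add, add_mul]

/-- The diagonal blocks inherit the standard identity. -/
theorem Std.blocks {d : ℕ} {X Y : Matrix (J ⊕ K) (J ⊕ K) F} (hX : X ∈ upper J K F)
    (hY : Y ∈ upper J K F) (h : Std d X Y) :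
    Std d X.toBlocks₁₁ Y.toBlocks₁₁ ∧ Std d X.toBlocks₂₂ Y.toBlocks₂₂ := by
  have h' : Std d (⟨X, hX⟩ : upper J K F) ⟨Y, hY⟩ := Std.restrict _ hX hY h
  have e₁ : ∀ Z : upper J K F, (block₁ (J := J) (K := K) (F := F)) Z = Z.1.toBlocks₁₁ :=
    fun Z => rfl
  have e₂ : ∀ Z : upper J K F, (block₂ (J := J) (K := K) (F := F)) Z = Z.1.toBlocks₂₂ :=
    fun Z => rfl
  constructor
  · have h₁ := Std.map (block₁ (J := J) (K := K) (F := F)) h'
    rw [e₁, e₁] at h₁
    exact h₁
  · have h₂ := Std.map (block₂ (J := J) (K := K) (F := F)) h'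
    rw [e₂, e₂] at h₂
    exact h₂

/-- A subspace is the graph of a matrix over suitable coordinates. -/
theorem exists_graph {F ι : Type} [Field F] [Fintype ι] [DecidableEq ι]
    (W : Submodule F (ι → F)) (hbot : W ≠ ⊥) (htop : W ≠ ⊤) :
    ∃ (p : ι → Prop) (_ : DecidablePred p) (C : Matrix {i // ¬ p i} {i // p i} F),
      Nonempty {i // p i} ∧ Nonempty {i // ¬ p i} ∧
      (∀ v ∈ W, (fun k : {i // ¬ p i} => v k.1) = C.mulVec fun j => v j.1) ∧
      ∀ x : {i // p i} → F, ∃ v ∈ W, (fun j : {i // p i} => v j.1) = x := by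
  classical
  let q : ι → (ι → F) ⧸ W := fun i => W.mkQ (Pi.single i 1)
  have hq : Submodule.span F (Set.range q) = ⊤ := by
    have : Set.range q = W.mkQ '' Set.range (Pi.basisFun F ι) := by
      rw [← Set.range_comp]
      simp [q, Function.comp_def]
    rw [this, Submodule.span_image, Module.Basis.span_eq, Submodule.map_top, Submodule.range_mkQ]
  obtain ⟨κ, a, ha, hsp, hli⟩ := exists_linearIndependent' F q
  rw [hq] at hsp
  have : Finite κ := Finite.of_injective a ha
  have : Fintype κ := Fintype.ofFinite κ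
  let p : ι → Prop := fun i => i ∉ Set.range a
  have hzero : ∀ v ∈ W, (∀ i, p i → v i = 0) → v = 0 := by
    intro v hv h0
    have hsum : ∑ l, v (a l) • q (a l) = 0 := by
      have hv' : v = ∑ l, v (a l) • (Pi.single (a l) (1 : F) : ι → F) := by
        funext i
        simp only [Finset.sum_apply, Pi.smul_apply, smul_eq_mul, Pi.single_apply, mul_ite,
          mul_one, mul_zero]
        by_cases hi : i ∈ Set.range a
        · obtain ⟨l, rfl⟩ := hi
          simp [ha.eq_iff]
        · rw [h0 i hi, Finset.sum_eq_zero]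
          intro l _
          rw [if_neg fun hh => hi ⟨l, hh.symm⟩]
      have h' : W.mkQ v = 0 := (Submodule.Quotient.mk_eq_zero W).2 hv
      rw [hv', map_sum] at h'
      simpa [q] using h'
    funext i
    by_cases hi : i ∈ Set.range a
    · obtain ⟨l, rfl⟩ := hi
      exact Fintype.linearIndependent_iff.1 hli _ hsum l
    · exact h0 i hi
  have hsurj : ∀ x : {i // p i} → F, ∃ v ∈ W, (fun j : {i // p i} => v j.1) = x := by
    intro x
    let y : ι → F := fun i => if h : p i then x ⟨i, h⟩ else 0
    have hy : W.mkQ y ∈ Submodule.span F (Set.range (q ∘ a)) := hsp ▸ Submodule.mem_top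
    obtain ⟨c, hc⟩ := (Submodule.mem_span_range_iff_exists_fun F).1 hy
    refine ⟨y - ∑ l, c l • Pi.single (a l) 1, ?_, ?_⟩
    · rw [← Submodule.Quotient.mk_eq_zero, ← Submodule.mkQ_apply, map_sub, map_sum, sub_eq_zero,
        ← hc]
      simp [q]
    · funext j
      have : ∀ l, a l ≠ j.1 := fun l hh => j.2 ⟨l, hh⟩
      simp [y, dif_pos j.2, Finset.sum_apply, fun l => (this l).symm]
  choose w hw hwx using fun j : {i // p i} => hsurj (Pi.single j 1)
  refine ⟨p, inferInstance, Matrix.of fun k j => w j k.1, ?_, ?_, ?_, hsurj⟩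
  · by_contra hJ
    rw [nonempty_subtype, not_exists] at hJ
    exact hbot ((Submodule.eq_bot_iff W).2 fun v hv => hzero v hv fun i hi => absurd hi (hJ i))
  · by_contra hK
    rw [nonempty_subtype, not_exists] at hK
    have : IsEmpty κ := ⟨fun l => hK (a l) fun hh => hh ⟨l, rfl⟩⟩
    apply htop
    rw [← W.ker_mkQ, LinearMap.ker_eq_top]
    refine LinearMap.ext fun v => ?_
    have : W.mkQ v ∈ Submodule.span F (Set.range (q ∘ a)) := hsp ▸ Submodule.mem_top
    rw [Set.range_eq_empty, Submodule.span_empty, Submodule.mem_bot] at this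
    simpa using this
  · intro v hv
    have h0 := hzero (v - ∑ j, v j.1 • w j)
      (W.sub_mem hv (W.sum_mem fun j _ => W.smul_mem _ (hw j))) ?_
    · funext k
      have := congrFun h0 k.1
      simp only [Pi.sub_apply, Finset.sum_apply, Pi.smul_apply, smul_eq_mul, Pi.zero_apply,
        sub_eq_zero] at this
      rw [this]
      simp [Matrix.mulVec, dotProduct, mul_comm]
    · intro i hi
      have : ∀ j, w j i = (Pi.single j (1 : F) : {i // p i} → F) ⟨i, hi⟩ :=
        fun j => congrFun (hwx j) ⟨i, hi⟩
      simp [Finset.sum_apply, this, Pi.single_apply]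

/-- In graph coordinates an invariant subspace gives a zero block. -/
theorem conj_mem_upper {F ι : Type} [Field F] [Fintype ι] [DecidableEq ι] {p : ι → Prop}
    [DecidablePred p] (W : Submodule F (ι → F)) (C : Matrix {i // ¬ p i} {i // p i} F)
    (hgraph : ∀ v ∈ W, (fun k : {i // ¬ p i} => v k.1) = C.mulVec fun j => v j.1)
    (hsurj : ∀ x : {i // p i} → F, ∃ v ∈ W, (fun j : {i // p i} => v j.1) = x)
    (X : Matrix ι ι F) (hX : ∀ v ∈ W, X.mulVec v ∈ W) :
    Matrix.fromBlocks 1 0 (-C) 1 * X.submatrix (Equiv.sumCompl p) (Equiv.sumCompl p) *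
      Matrix.fromBlocks 1 0 C 1 ∈ upper {i // p i} {i // ¬ p i} F := by
  set σ := Equiv.sumCompl p with hσ
  show Matrix.toBlocks₂₁ _ = 0
  have hcol : (X.submatrix σ σ).toBlocks₂₁ + (X.submatrix σ σ).toBlocks₂₂ * C
      = C * ((X.submatrix σ σ).toBlocks₁₁ + (X.submatrix σ σ).toBlocks₁₂ * C) := by
    refine Matrix.ext fun k j => ?_
    obtain ⟨v, hv, hvj⟩ := hsurj (Pi.single j 1)
    have hvk := hgraph v hv
    have hv' : ∀ i : {i // p i} ⊕ {i // ¬ p i}, v (σ i) =
        Sum.elim (Pi.single j 1) (fun k' => C k' j) i := by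
      intro i
      rcases i with i | i
      · exact congrFun hvj i
      · have := congrFun hvk i
        rw [hvj, Matrix.mulVec_single_one] at this
        exact this
    have hsplit : ∀ i₀ : ι, X.mulVec v i₀ = X i₀ j.1 + ∑ i : {i // ¬ p i}, X i₀ i.1 * C i j := by
      intro i₀
      rw [Matrix.mulVec, dotProduct, ← σ.sum_comp, Fintype.sum_sum_type]
      simp only [hv', Sum.elim_inl, Sum.elim_inr, Pi.single_apply, mul_ite, mul_one, mul_zero,
        Finset.sum_ite_eq', Finset.mem_univ, if_true]
      rfl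
    have hXv : X.mulVec v k.1 = C.mulVec (fun j' => X.mulVec v j'.1) k :=
      congrFun (hgraph _ (hX v hv)) k
    simp only [hsplit] at hXv
    simpa [Matrix.mul_apply, Matrix.mulVec, dotProduct, Matrix.toBlocks₁₁, Matrix.toBlocks₁₂,
      Matrix.toBlocks₂₁, Matrix.toBlocks₂₂, hσ] using hXv
  rw [← Matrix.fromBlocks_toBlocks (X.submatrix σ σ)]
  simp only [Matrix.fromBlocks_multiply, Matrix.toBlocks_fromBlocks₂₁, Matrix.one_mul,
    Matrix.mul_one]
  rw [← sub_eq_zero.2 hcol]
  simp only [Matrix.neg_mul, Matrix.add_mul, Matrix.mul_add, Matrix.mul_assoc]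
  abel

/-- The entries of a product lie in a subalgebra containing the entries of the factors. -/
theorem mul_entries {R F : Type} [CommRing R] [CommRing F] [Algebra R F] {n : Type} [Fintype n]
    (S : Subalgebra R F) {X Y : Matrix n n F} (hX : ∀ i j, X i j ∈ S) (hY : ∀ i j, Y i j ∈ S) :
    ∀ i j, (X * Y) i j ∈ S :=
  fun i j => S.sum_mem fun k _ => S.mul_mem (hX i k) (hY k j)

/-- Passing to the coordinates adapted to a graph. -/
def graphHom {F ι : Type} [Field F] [Fintype ι] [DecidableEq ι] {p : ι → Prop} [DecidablePred p]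
    (C : Matrix {i // ¬ p i} {i // p i} F) :
    Matrix ι ι F →+* Matrix ({i // p i} ⊕ {i // ¬ p i}) ({i // p i} ⊕ {i // ¬ p i}) F :=
  (conj (Matrix.fromBlocks 1 0 C 1) (Matrix.fromBlocks 1 0 (-C) 1)
      (by simp [Matrix.fromBlocks_multiply]) (by simp [Matrix.fromBlocks_multiply])).comp
    (Matrix.reindexAlgEquiv F F (Equiv.sumCompl p).symm).toRingEquiv.toRingHom

theorem graphHom_apply {F ι : Type} [Field F] [Fintype ι] [DecidableEq ι] {p : ι → Prop}
    [DecidablePred p] (C : Matrix {i // ¬ p i} {i // p i} F) (X : Matrix ι ι F) :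
    graphHom C X = Matrix.fromBlocks 1 0 (-C) 1 *
      X.submatrix (Equiv.sumCompl p) (Equiv.sumCompl p) * Matrix.fromBlocks 1 0 C 1 :=
  rfl

/-- The entries can be recovered from the parameters. -/
theorem entries_mem {R F ι : Type} [CommRing R] [Field F] [Algebra R F] [Fintype ι]
    [DecidableEq ι] {p : ι → Prop} [DecidablePred p] (S : Subalgebra R F)
    (C : Matrix {i // ¬ p i} {i // p i} F) (X : Matrix ι ι F) (hC : ∀ k j, C k j ∈ S)
    (hX : ∀ x y, graphHom C X x y ∈ S) : ∀ i j, X i j ∈ S := by
  intro i j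
  have hLS : ∀ (D : Matrix {i // ¬ p i} {i // p i} F), (∀ k j, D k j ∈ S) →
      ∀ x y, Matrix.fromBlocks (1 : Matrix {i // p i} {i // p i} F) 0 D
        (1 : Matrix {i // ¬ p i} {i // ¬ p i} F) x y ∈ S := by
    intro D hD
    rintro (x | x) (y | y)
    · rw [Matrix.fromBlocks_apply₁₁, Matrix.one_apply]
      split_ifs <;> simp [S.one_mem, S.zero_mem]
    · exact S.zero_mem
    · exact hD x y
    · rw [Matrix.fromBlocks_apply₂₂, Matrix.one_apply]
      split_ifs <;> simp [S.one_mem, S.zero_mem]
  have h1 : Matrix.fromBlocks (1 : Matrix {i // p i} {i // p i} F) 0 C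
      (1 : Matrix {i // ¬ p i} {i // ¬ p i} F) * Matrix.fromBlocks 1 0 (-C) 1 = 1 := by
    simp [Matrix.fromBlocks_multiply]
  have : X.submatrix (Equiv.sumCompl p) (Equiv.sumCompl p) =
      Matrix.fromBlocks 1 0 C 1 * graphHom C X * Matrix.fromBlocks 1 0 (-C) 1 := by
    rw [graphHom_apply, ← mul_assoc, ← mul_assoc, h1, one_mul, mul_assoc, h1, mul_one]
  have := congrFun (congrFun this ((Equiv.sumCompl p).symm i)) ((Equiv.sumCompl p).symm j)
  simp only [Matrix.submatrix_apply, Equiv.apply_symm_apply] at this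
  rw [this]
  exact mul_entries S (mul_entries S (hLS C hC) hX)
    (hLS (-C) fun k j => S.neg_mem (hC k j)) _ _

/-- The parameters of one block triangular matrix. -/
theorem block_mem {R F J K : Type} [CommRing R] [CommRing F] [Algebra R F] [Fintype J]
    [Fintype K] [DecidableEq J] [DecidableEq K] {S : Subalgebra R F}
    {X : Matrix (J ⊕ K) (J ⊕ K) F} (hX : X ∈ upper J K F) (h11 : ∀ x y, X.toBlocks₁₁ x y ∈ S)
    (h12 : ∀ x y, X.toBlocks₁₂ x y ∈ S) (h22 : ∀ x y, X.toBlocks₂₂ x y ∈ S) :
    ∀ x y, X x y ∈ S := by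
  rintro (x | x) (y | y)
  · exact h11 x y
  · exact h12 x y
  · have : X (Sum.inr x) (Sum.inl y) = 0 := congrFun (congrFun hX x) y
    rw [this]
    exact S.zero_mem
  · exact h22 x y

/-- The subalgebra generated by a finite set in coordinates. -/
theorem mem_adjoin_image {F α : Type} [Field F] [Algebra ℂ F] [DecidableEq F] [Fintype α]
    (f : α → F) (T : Finset F) (h : Finset.univ.image f ⊆ T) (x : α) :
    f x ∈ Algebra.adjoin ℂ (T : Set F) :=
  Algebra.subset_adjoin (h (Finset.mem_image_of_mem f (Finset.mem_univ x)))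

/-- Few parameters generate the entries. -/
theorem exists_params {F : Type} [Field F] [Algebra ℂ F] [IsAlgClosed F] (d : ℕ) :
    ∀ (M : ℕ) (ι : Type) [Fintype ι] [DecidableEq ι] (A B : Matrix ι ι F),
      Fintype.card ι = M → Std d A B →
      ∃ T : Finset F, 2 * T.card ≤ 3 * M ^ 2 + d * M ∧
        ∀ i j, A i j ∈ Algebra.adjoin ℂ (T : Set F) ∧ B i j ∈ Algebra.adjoin ℂ (T : Set F) := by
  classical
  intro M
  induction M using Nat.strong_induction_on with
  | _ M ih =>
  intro ι _ _ A B hM h
  by_cases hd : M ≤ d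
  · let fA := fun x : ι × ι => A x.1 x.2
    let fB := fun x : ι × ι => B x.1 x.2
    refine ⟨Finset.univ.image fA ∪ Finset.univ.image fB, ?_, fun i j =>
      ⟨mem_adjoin_image fA _ Finset.subset_union_left (i, j),
        mem_adjoin_image fB _ Finset.subset_union_right (i, j)⟩⟩
    have h1 := Finset.card_union_le (Finset.univ.image fA) (Finset.univ.image fB)
    have h2 := (Finset.card_image_le (s := Finset.univ) (f := fA))
    have h3 := (Finset.card_image_le (s := Finset.univ) (f := fB))
    simp only [Finset.card_univ, Fintype.card_prod, hM] at h2 h3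
    nlinarith
  obtain ⟨W, hbot, htop, hW⟩ := exists_invariant h (by omega)
  obtain ⟨p, _, C, hJne, hKne, hgraph, hsurj⟩ := exists_graph W hbot htop
  have hA : graphHom C A ∈ upper {i // p i} {i // ¬ p i} F :=
    graphHom_apply C A ▸ conj_mem_upper W C hgraph hsurj A fun v hv => (hW v hv).1
  have hB : graphHom C B ∈ upper {i // p i} {i // ¬ p i} F :=
    graphHom_apply C B ▸ conj_mem_upper W C hgraph hsurj B fun v hv => (hW v hv).2
  obtain ⟨h₁, h₂⟩ := Std.blocks hA hB (h.map (graphHom C))
  have hcard : Fintype.card {i // p i} + Fintype.card {i // ¬ p i} = M := by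
    rw [← hM, ← Fintype.card_sum, Fintype.card_congr (Equiv.sumCompl p)]
  have hJ : 0 < Fintype.card {i // p i} := Fintype.card_pos
  have hK : 0 < Fintype.card {i // ¬ p i} := Fintype.card_pos
  obtain ⟨T₁, hT₁, hA₁⟩ := ih (Fintype.card {i // p i}) (by omega) {i // p i}
    (graphHom C A).toBlocks₁₁ (graphHom C B).toBlocks₁₁ rfl h₁
  obtain ⟨T₂, hT₂, hA₂⟩ := ih (Fintype.card {i // ¬ p i}) (by omega) {i // ¬ p i}
    (graphHom C A).toBlocks₂₂ (graphHom C B).toBlocks₂₂ rfl h₂
  let fC := fun x : {i // ¬ p i} × {i // p i} => C x.1 x.2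
  let fA := fun x : {i // p i} × {i // ¬ p i} => (graphHom C A).toBlocks₁₂ x.1 x.2
  let fB := fun x : {i // p i} × {i // ¬ p i} => (graphHom C B).toBlocks₁₂ x.1 x.2
  let TC := Finset.univ.image fC
  let TA := Finset.univ.image fA
  let TB := Finset.univ.image fB
  refine ⟨TC ∪ TA ∪ TB ∪ T₁ ∪ T₂, ?_, ?_⟩
  · have hC : TC.card ≤ Fintype.card {i // p i} * Fintype.card {i // ¬ p i} :=
      Finset.card_image_le.trans (by rw [Finset.card_univ, Fintype.card_prod, mul_comm])
    have hA' : TA.card ≤ Fintype.card {i // p i} * Fintype.card {i // ¬ p i} :=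
      Finset.card_image_le.trans (by rw [Finset.card_univ, Fintype.card_prod])
    have hB' : TB.card ≤ Fintype.card {i // p i} * Fintype.card {i // ¬ p i} :=
      Finset.card_image_le.trans (by rw [Finset.card_univ, Fintype.card_prod])
    have := Finset.card_union_le (TC ∪ TA ∪ TB ∪ T₁) T₂
    have := Finset.card_union_le (TC ∪ TA ∪ TB) T₁
    have := Finset.card_union_le (TC ∪ TA) TB
    have := Finset.card_union_le TC TA
    rw [← hcard]
    nlinarith
  have u₄ : TC ∪ TA ∪ TB ∪ T₁ ⊆ TC ∪ TA ∪ TB ∪ T₁ ∪ T₂ := Finset.subset_union_left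
  have u₃ : TC ∪ TA ∪ TB ⊆ TC ∪ TA ∪ TB ∪ T₁ ∪ T₂ := Finset.subset_union_left.trans u₄
  have u₂ : TC ∪ TA ⊆ TC ∪ TA ∪ TB ∪ T₁ ∪ T₂ := Finset.subset_union_left.trans u₃
  have hle₁ : Algebra.adjoin ℂ (T₁ : Set F) ≤
      Algebra.adjoin ℂ ((TC ∪ TA ∪ TB ∪ T₁ ∪ T₂ : Finset F) : Set F) :=
    Algebra.adjoin_mono (Finset.coe_subset.2 (Finset.subset_union_right.trans u₄))
  have hle₂ : Algebra.adjoin ℂ (T₂ : Set F) ≤
      Algebra.adjoin ℂ ((TC ∪ TA ∪ TB ∪ T₁ ∪ T₂ : Finset F) : Set F) :=
    Algebra.adjoin_mono (Finset.coe_subset.2 Finset.subset_union_right)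
  have hCS := fun k j => mem_adjoin_image fC _ (Finset.subset_union_left.trans u₂) (k, j)
  intro i j
  refine ⟨entries_mem _ C A hCS (block_mem hA (fun x y => hle₁ (hA₁ x y).1)
      (fun x y => mem_adjoin_image fA _ (Finset.subset_union_right.trans u₂) (x, y))
      fun x y => hle₂ (hA₂ x y).1) i j,
    entries_mem _ C B hCS (block_mem hB (fun x y => hle₁ (hA₁ x y).2)
      (fun x y => mem_adjoin_image fB _ (Finset.subset_union_right.trans u₃) (x, y))
      fun x y => hle₂ (hA₂ x y).2) i j⟩

end TriProof

open TriProof in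
theorem triPin : TriPin := by
  intro F _ _ _ ι _ _ A B d h
  obtain ⟨T, hT, hAB⟩ := exists_params d _ ι A B rfl h
  refine ⟨T.card, fun k => (T.equivFin.symm k).1, ?_, ?_⟩
  · nlinarith
  have hrange : Set.range (fun k => (T.equivFin.symm k).1) = (T : Set F) := by
    ext x
    constructor
    · rintro ⟨k, rfl⟩
      exact (T.equivFin.symm k).2
    · intro hx
      exact ⟨T.equivFin ⟨x, hx⟩, by simp⟩
  rw [hrange]
  intro i j
  exact ⟨isAlgebraic_algebraMap (⟨A i j, (hAB i j).1⟩ : Algebra.adjoin ℂ (T : Set F)),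
    isAlgebraic_algebraMap (⟨B i j, (hAB i j).2⟩ : Algebra.adjoin ℂ (T : Set F))⟩

end Vale.Agent.P199.K
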