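import Vale.Agent.P199.K.Assembly
import Vale.Agent.P199.K.Div
import Vale.Agent.P199.K.Model
import Vale.Agent.P199.K.Root
import Vale.Agent.P199.K.Start
import Vale.Agent.P199.K.Tri
import Vale.Agent.P199.K.HS.Core
import Vale.Agent.P199.K.HS.Cut
import Vale.Agent.P199.K.HS.Prod
import Vale.Agent.P199.K.HS.Rename

/-!
P199: the disproof of Kurosh's conjecture from its blocks.
-/

namespace Vale.Agent.P199.K

/-- A good prime for the start gives the counterexample. -/
theorem goal_of_start (hStart : StartPin) : Goal :=
  Assembly.goal_of_pins
    (modelPin (Cut.cutPin Core.corePin) (Cut.varPin Core.corePin) Core.renamePin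
      (Prod.prodPin Core.corePin)
      (divPin (Cut.cutExpandPin Core.corePin) (Cut.varPin Core.corePin)
        (Cut.hBoundPin Core.corePin)) hStart)
    triPin rootPin

/-- Kurosh's conjecture for division rings is false. -/
theorem goal : Goal := goal_of_start (startPin Core.corePin)

end Vale.Agent.P199.K
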